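import Vale.Agent.P122.H518.E12

/-!
# P076 / H803 : regularisation of a finite family of variables (helper803)

`exists_reg` : every system has a dense sub-law (same space, conditioned on an event of probability `2 ^ (-o(L))`) for
which all tuples of a finite family of tame variables are flat: `Unf` and `Cnt` hold with the entropies as exponents,
also conditionally; and every value on the support keeps a probability `2 ^ (-h L - o(L))` (`Low`).
-/

set_option autoImplicit false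

namespace Vale.Agent.P076.H803

open Filter Topology Finset Vale.Agent.P127 Vale.Agent.P127.Stk Vale.Agent.P127.U Vale.Agent.P127.U.Sys
  Vale.Agent.P122.E Vale.Agent.P122.H518

/-! ### finite laws -/

section fin

variable {Ω : Type} [Fintype Ω]

theorem markov_H (P : Law Ω) {β : Type*} (X : Ω → β) :
    1 / 2 ≤ prE P (fun ω => 0 < P.w ω ∧ -Real.log (P.pr X (X ω)) ≤ 2 * P.H X) := by
  classical
  set F : Ω → ℝ := fun ω => -Real.log (P.pr X (X ω)) with hF
  have hF0 : ∀ ω, 0 ≤ F ω := fun ω => by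
    have := Real.log_nonpos (P.pr_nonneg X (X ω)) (P.pr_le_one X (X ω))
    simp only [hF]
    linarith
  have hH : ∑ ω, P.w ω * F ω = P.H X := rfl
  have hH0 : 0 ≤ P.H X := P.H_nonneg X
  obtain ⟨G, hG⟩ : ∃ G : Ω → Prop, G = fun ω => 0 < P.w ω ∧ F ω ≤ 2 * P.H X := ⟨_, rfl⟩
  have hGi : ∀ ω, G ω ↔ (0 < P.w ω ∧ F ω ≤ 2 * P.H X) := fun ω => by rw [hG]
  obtain ⟨B, hB⟩ : ∃ B : Ω → Prop, B = fun ω => ¬ G ω := ⟨_, rfl⟩
  have hBi : ∀ ω, B ω → ¬ (0 < P.w ω ∧ F ω ≤ 2 * P.H X) := fun ω h => by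
    rw [hB] at h
    exact fun h' => h ((hGi ω).2 h')
  have h1 : prE P B ≤ 1 / 2 := by
    have hle : ∑ ω with B ω, P.w ω * F ω ≤ P.H X := by
      rw [← hH]
      exact Finset.sum_le_sum_of_subset_of_nonneg (Finset.filter_subset _ _)
        fun ω _ _ => mul_nonneg (P.nn ω) (hF0 ω)
    have hlow : ∀ ω, B ω → P.w ω * (2 * P.H X) ≤ P.w ω * F ω := by
      intro ω hω
      rcases (P.nn ω).eq_or_lt with h0 | h0
      · rw [← h0]; simp
      · refine mul_le_mul_of_nonneg_left ?_ h0.le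
        by_contra hcon
        exact hBi ω hω ⟨h0, (not_le.1 hcon).le⟩
    rcases hH0.eq_or_lt with h0 | h0
    · have h2 : ∀ ω ∈ univ.filter (fun ω => B ω), P.w ω * F ω = 0 := by
        refine (Finset.sum_eq_zero_iff_of_nonneg fun ω _ => mul_nonneg (P.nn ω) (hF0 ω)).1 ?_
        exact le_antisymm (hle.trans h0.symm.le) (Finset.sum_nonneg fun ω _ => mul_nonneg (P.nn ω) (hF0 ω))
      have h3 : prE P B = 0 := by
        unfold prE
        refine Finset.sum_eq_zero fun ω hω => ?_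
        have hω' := (Finset.mem_filter.1 hω).2
        by_contra hne
        have hpos : 0 < P.w ω := lt_of_le_of_ne (P.nn ω) (Ne.symm hne)
        rcases mul_eq_zero.1 (h2 ω (by simpa using hω')) with h | h
        · exact hne h
        · exact hBi ω hω' ⟨hpos, by rw [h, ← h0]; norm_num⟩
      rw [h3]; norm_num
    · have h2 : prE P B * (2 * P.H X) ≤ P.H X := by
        unfold prE
        rw [Finset.sum_mul]
        exact le_trans (Finset.sum_le_sum fun ω hω => hlow ω (Finset.mem_filter.1 hω).2) hle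
      by_contra hcon
      push Not at hcon
      nlinarith
  have h2 := prE_not P G
  rw [← hB] at h2
  have h3 : prE P (fun ω => 0 < P.w ω ∧ -Real.log (P.pr X (X ω)) ≤ 2 * P.H X) = prE P G := by rw [hG]
  rw [h3]
  linarith

theorem fin_reg (P : Law Ω) {κ : Type} [Fintype κ] {β : κ → Type} (X : ∀ k, Ω → β k) (T : κ)
    (hT : ∀ k ω ω', X T ω = X T ω' → X k ω = X k ω') :
    ∃ (E : Ω → Prop) (n : κ → ℕ) (q : ℕ), (q : ℝ) ≤ 2 * P.H (X T) / Real.log 2 ∧
      1 / (2 * ((q : ℝ) + 1) ^ Fintype.card κ) ≤ prE P E ∧ (∀ ω, E ω → 0 < P.w ω) ∧ (∀ k, n k ≤ q) ∧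
      ∀ ω, E ω → ∀ k, (1 / 2 : ℝ) ^ (n k + 1) ≤ P.pr (X k) (X k ω) ∧ P.pr (X k) (X k ω) ≤ (1 / 2 : ℝ) ^ n k := by
  classical
  have hl2 : 0 < Real.log 2 := Real.log_pos (by norm_num)
  set b : κ → Ω → ℕ := fun k ω => ⌊-Real.log (P.pr (X k) (X k ω)) / Real.log 2⌋₊ with hb
  obtain ⟨G, hG⟩ : ∃ G : Ω → Prop, G = fun ω => 0 < P.w ω ∧ -Real.log (P.pr (X T) (X T ω)) ≤ 2 * P.H (X T) := ⟨_, rfl⟩
  have hGi : ∀ ω, G ω ↔ (0 < P.w ω ∧ -Real.log (P.pr (X T) (X T ω)) ≤ 2 * P.H (X T)) := fun ω => by rw [hG]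
  set q : ℕ := ⌊2 * P.H (X T) / Real.log 2⌋₊ with hq
  have hq0 : (0:ℝ) ≤ 2 * P.H (X T) / Real.log 2 := div_nonneg (by have := P.H_nonneg (X T); linarith) hl2.le
  have hbq : ∀ ω, G ω → ∀ k, b k ω ≤ q := by
    intro ω hω k
    refine Nat.floor_le_floor (div_le_div_of_nonneg_right ?_ hl2.le)
    refine le_trans ?_ ((hGi ω).1 hω).2
    have h1 : P.pr (X T) (X T ω) ≤ P.pr (X k) (X k ω) := by
      unfold Law.pr
      refine Finset.sum_le_sum_of_subset_of_nonneg ?_ fun ω _ _ => P.nn ω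
      intro ω' h'
      simp only [mem_filter, mem_univ, true_and] at h' ⊢
      exact hT k ω' ω h'
    have := Real.log_le_log (P.pr_pos (X T) ((hGi ω).1 hω).1) h1
    linarith
  have hsum : ∑ ω with G ω, P.w ω = prE P G := rfl
  obtain ⟨n, hn, hle⟩ := Finset.exists_le_sum_fiber_of_maps_to_of_nsmul_le_sum
    (s := univ.filter G) (t := Fintype.piFinset fun _ : κ => range (q + 1)) (f := fun ω k => b k ω) (w := P.w)
    (b := 1 / (2 * ((q : ℝ) + 1) ^ Fintype.card κ))
    (by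
      intro ω hω
      rw [Fintype.mem_piFinset]
      intro k
      rw [mem_range]
      exact Nat.lt_succ_of_le (hbq ω (Finset.mem_filter.1 hω).2 k))
    ⟨fun _ => 0, by rw [Fintype.mem_piFinset]; intro k; simp⟩
    (by
      rw [hsum, Fintype.card_piFinset, Finset.prod_const, card_range, nsmul_eq_mul]
      have h1 := markov_H P (X T)
      rw [← hG] at h1
      refine le_trans (le_of_eq ?_) h1
      push_cast
      rw [Finset.card_univ]
      field_simp)
  refine ⟨fun ω => G ω ∧ ∀ k, b k ω = n k, n, q, Nat.floor_le hq0, ?_, fun ω h => ((hGi ω).1 h.1).1, ?_, ?_⟩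
  · refine le_trans hle ?_
    unfold prE
    rw [Finset.filter_filter]
    refine Finset.sum_le_sum_of_subset_of_nonneg ?_ fun ω _ _ => P.nn ω
    intro ω hω
    simp only [mem_filter, mem_univ, true_and] at hω ⊢
    exact ⟨hω.1, fun k => congrFun hω.2 k⟩
  · intro k
    have := Fintype.mem_piFinset.1 hn k
    rw [mem_range] at this
    omega
  · rintro ω ⟨hGω, hbn⟩ k
    have hw := ((hGi ω).1 hGω).1
    have hp := P.pr_pos (X k) hw
    have hx0 : 0 ≤ -Real.log (P.pr (X k) (X k ω)) / Real.log 2 := by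
      have := Real.log_nonpos (P.pr_nonneg (X k) (X k ω)) (P.pr_le_one (X k) (X k ω))
      exact div_nonneg (by linarith) hl2.le
    have h1 := Nat.floor_le hx0
    have h2 := Nat.lt_floor_add_one (-Real.log (P.pr (X k) (X k ω)) / Real.log 2)
    have h3 : (⌊-Real.log (P.pr (X k) (X k ω)) / Real.log 2⌋₊ : ℝ) = n k := by
      exact_mod_cast hbn k
    rw [h3] at h1 h2
    rw [le_div_iff₀ hl2] at h1
    rw [div_lt_iff₀ hl2] at h2
    have h4 : ∀ m : ℕ, (1 / 2 : ℝ) ^ m = Real.exp (-(m * Real.log 2)) := by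
      intro m
      rw [Real.exp_neg, Real.exp_nat_mul, Real.exp_log (by norm_num), one_div, inv_pow]
    rw [h4, h4]
    constructor
    · refine le_trans ?_ (Real.exp_log hp).le
      refine Real.exp_le_exp.2 ?_
      push_cast
      linarith
    · refine le_trans (Real.exp_log hp).ge ?_
      exact Real.exp_le_exp.2 (by linarith)

/-- pruning: every remaining value of every variable keeps the mass `θ` -/
theorem prune (P : Law Ω) {κ : Type} [Fintype κ] {β : κ → Type} (X : ∀ k, Ω → β k) (E : Ω → Prop)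
    (M θ : κ → ℝ) (hθ : ∀ k, 0 ≤ θ k) (hM : ∀ k, ∀ A : Finset (β k), (∀ a ∈ A, ∃ ω, E ω ∧ X k ω = a) → (A.card : ℝ) ≤ M k) :
    ∃ E' : Ω → Prop, (∀ ω, E' ω → E ω) ∧ prE P E ≤ prE P E' + ∑ k, θ k * M k ∧
      ∀ ω, E' ω → ∀ k, θ k ≤ prE P (fun ω' => E' ω' ∧ X k ω' = X k ω) := by
  classical
  -- missing values
  set mis : Finset Ω → ∀ k, Finset (β k) := fun A k => ((univ.filter E).image (X k)) \ (A.image (X k)) with hmis
  set Good : Finset Ω → Prop := fun A => A ⊆ univ.filter E ∧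
    ∑ ω ∈ univ.filter E, P.w ω ≤ ∑ ω ∈ A, P.w ω + ∑ k, θ k * ((mis A k).card : ℝ) with hGood
  have h0 : Good (univ.filter E) := ⟨subset_rfl, by
    have : 0 ≤ ∑ k, θ k * ((mis (univ.filter E) k).card : ℝ) :=
      Finset.sum_nonneg fun k _ => mul_nonneg (hθ k) (Nat.cast_nonneg _)
    linarith⟩
  obtain ⟨A, hA, hmin⟩ := Finset.exists_min_image (univ.filter fun A : Finset Ω => Good A) (fun A => A.card)
    ⟨_, Finset.mem_filter.2 ⟨Finset.mem_univ _, h0⟩⟩
  have hAG : Good A := (Finset.mem_filter.1 hA).2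
  have hprE : ∀ F : Ω → Prop, prE P F = ∑ ω ∈ univ.filter F, P.w ω := fun F => by
    unfold prE
    refine Finset.sum_congr ?_ fun _ _ => rfl
    ext ω
    simp
  refine ⟨fun ω => ω ∈ A, fun ω h => (Finset.mem_filter.1 (hAG.1 h)).2, ?_, ?_⟩
  · have h1 : prE P (fun ω => ω ∈ A) = ∑ ω ∈ A, P.w ω := by
      rw [hprE]
      refine Finset.sum_congr ?_ fun _ _ => rfl
      ext ω
      simp
    rw [h1, hprE]
    refine hAG.2.trans (add_le_add_right (Finset.sum_le_sum fun k _ => mul_le_mul_of_nonneg_left ?_ (hθ k)) _)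
    refine hM k _ fun a ha => ?_
    obtain ⟨ω, h2, h3⟩ := Finset.mem_image.1 (Finset.mem_sdiff.1 ha).1
    exact ⟨ω, (Finset.mem_filter.1 h2).2, h3⟩
  · intro ω hω k
    by_contra hcon
    push Not at hcon
    set B : Finset Ω := A.filter fun ω' => ¬ (X k ω' = X k ω) with hB
    have hlt : B.card < A.card := by
      refine Finset.card_lt_card (Finset.filter_ssubset.2 ⟨ω, hω, by simp⟩)
    have hfib : ∑ ω' ∈ A.filter (fun ω' => X k ω' = X k ω), P.w ω' ≤ θ k := by
      refine le_trans (le_of_eq ?_) hcon.le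
      rw [hprE]
      refine Finset.sum_congr ?_ fun _ _ => rfl
      ext ω'
      simp
    have hsplit : ∑ ω' ∈ A, P.w ω' = ∑ ω' ∈ A.filter (fun ω' => X k ω' = X k ω), P.w ω' + ∑ ω' ∈ B, P.w ω' :=
      (Finset.sum_filter_add_sum_filter_not A (fun ω' => X k ω' = X k ω) P.w).symm
    have hmono : ∀ k', (mis A k').card ≤ (mis B k').card := fun k' =>
      Finset.card_le_card (Finset.sdiff_subset_sdiff subset_rfl (Finset.image_subset_image (Finset.filter_subset _ _)))
    have hk : (mis A k).card + 1 ≤ (mis B k).card := by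
      refine Nat.succ_le_of_lt (Finset.card_lt_card ?_)
      rw [Finset.ssubset_iff_of_subset
        (Finset.sdiff_subset_sdiff subset_rfl (Finset.image_subset_image (Finset.filter_subset _ _)))]
      refine ⟨X k ω, ?_, ?_⟩
      · rw [Finset.mem_sdiff]
        refine ⟨Finset.mem_image_of_mem _ (hAG.1 hω), fun h => ?_⟩
        obtain ⟨ω', h2, h3⟩ := Finset.mem_image.1 h
        exact (Finset.mem_filter.1 h2).2 h3
      · rw [Finset.mem_sdiff]
        exact fun h => h.2 (Finset.mem_image_of_mem _ hω)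
    have hBG : Good B := by
      refine ⟨(Finset.filter_subset _ _).trans hAG.1, ?_⟩
      have h1 : ∑ k', θ k' * ((mis A k').card : ℝ) + θ k ≤ ∑ k', θ k' * ((mis B k').card : ℝ) := by
        rw [← Finset.add_sum_erase univ _ (Finset.mem_univ k), ← Finset.add_sum_erase univ _ (Finset.mem_univ k)]
        have h2 : θ k * ((mis A k).card : ℝ) + θ k ≤ θ k * ((mis B k).card : ℝ) := by
          have h3 : ((mis A k).card : ℝ) + 1 ≤ (mis B k).card := by exact_mod_cast hk
          nlinarith [hθ k]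
        have h4 : ∑ k' ∈ univ.erase k, θ k' * ((mis A k').card : ℝ) ≤ ∑ k' ∈ univ.erase k, θ k' * ((mis B k').card : ℝ) :=
          Finset.sum_le_sum fun k' _ => mul_le_mul_of_nonneg_left (by exact_mod_cast hmono k') (hθ k')
        linarith
      have h5 := hAG.2
      linarith
    have := hmin B (Finset.mem_filter.2 ⟨Finset.mem_univ _, hBG⟩)
    omega

/-- `fin_reg` with lower bounds of the masses in the event itself -/
theorem fin_reg' (P : Law Ω) {κ : Type} [Fintype κ] {β : κ → Type} (X : ∀ k, Ω → β k) (T : κ)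
    (hT : ∀ k ω ω', X T ω = X T ω' → X k ω = X k ω') :
    ∃ (E : Ω → Prop) (n : κ → ℕ) (q : ℕ), (q : ℝ) ≤ 2 * P.H (X T) / Real.log 2 ∧
      1 / (4 * ((q : ℝ) + 1) ^ Fintype.card κ) ≤ prE P E ∧ (∀ ω, E ω → 0 < P.w ω) ∧ (∀ k, n k ≤ q) ∧
      (∀ ω, E ω → ∀ k, (1 / 2 : ℝ) ^ (n k + 1) ≤ P.pr (X k) (X k ω) ∧ P.pr (X k) (X k ω) ≤ (1 / 2 : ℝ) ^ n k) ∧
      ∀ ω, E ω → ∀ k, (1 / 2 : ℝ) ^ n k ≤ 8 * Fintype.card κ * ((q : ℝ) + 1) ^ Fintype.card κ *
        prE P (fun ω' => E ω' ∧ X k ω' = X k ω) := by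
  classical
  obtain ⟨E, n, q, hq, hE, hpos, hn, hb⟩ := fin_reg P X T hT
  set m : ℝ := (Fintype.card κ : ℝ) with hm
  have hm1 : 1 ≤ m := by
    have : 0 < Fintype.card κ := Fintype.card_pos_iff.2 ⟨T⟩
    rw [hm]
    exact_mod_cast this
  have hE0 : 0 < prE P E := lt_of_lt_of_le (by positivity) hE
  have hM : ∀ k, ∀ A : Finset (β k), (∀ a ∈ A, ∃ ω, E ω ∧ X k ω = a) → (A.card : ℝ) ≤ 2 ^ (n k + 1) := by
    intro k A hA
    have h1 : (A.card : ℝ) * (1 / 2 : ℝ) ^ (n k + 1) ≤ ∑ a ∈ A, P.pr (X k) a := by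
      rw [← nsmul_eq_mul]
      refine Finset.card_nsmul_le_sum _ _ _ fun a ha => ?_
      obtain ⟨ω, h2, h3⟩ := hA a ha
      rw [← h3]
      exact (hb ω h2 k).1
    have h2 : ∑ a ∈ A, P.pr (X k) a ≤ 1 := by
      rw [← P.sum_pr_image (X k)]
      refine Finset.sum_le_sum_of_subset_of_nonneg ?_ fun a _ _ => P.pr_nonneg _ _
      intro a ha
      obtain ⟨ω, -, h3⟩ := hA a ha
      exact mem_img.2 ⟨ω, h3⟩
    have h3 : (0:ℝ) < (1 / 2 : ℝ) ^ (n k + 1) := by positivity
    have h4 : (A.card : ℝ) ≤ 1 / (1 / 2 : ℝ) ^ (n k + 1) := by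
      rw [le_div_iff₀ h3]
      linarith
    refine h4.trans (le_of_eq ?_)
    rw [one_div_pow, one_div_one_div]
  obtain ⟨E', hE'E, hE', hlow⟩ := prune P X E (fun k => 2 ^ (n k + 1)) (fun k => prE P E / (2 * m * 2 ^ (n k + 1)))
    (fun k => by positivity) hM
  have hsum : ∑ k, prE P E / (2 * m * 2 ^ (n k + 1)) * (2:ℝ) ^ (n k + 1) = prE P E / 2 := by
    have : ∀ k ∈ (univ : Finset κ), prE P E / (2 * m * 2 ^ (n k + 1)) * (2:ℝ) ^ (n k + 1) = prE P E / (2 * m) := by
      intro k _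
      field_simp
    rw [Finset.sum_congr rfl this, Finset.sum_const, nsmul_eq_mul, Finset.card_univ, ← hm]
    field_simp
  rw [hsum] at hE'
  have hE'2 : prE P E / 2 ≤ prE P E' := by linarith
  refine ⟨E', n, q, hq, ?_, fun ω h => hpos ω (hE'E ω h), hn, fun ω h => hb ω (hE'E ω h), ?_⟩
  · refine le_trans ?_ hE'2
    refine le_trans (le_of_eq ?_) (div_le_div_of_nonneg_right hE (by norm_num : (0:ℝ) ≤ 2))
    field_simp
    norm_num
  · intro ω hω k
    have h1 := hlow ω hω k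
    have h2 : (1:ℝ) ≤ 2 * (q + 1) ^ Fintype.card κ * prE P E := by
      rw [div_le_iff₀ (by positivity)] at hE
      linarith
    have h3 : prE P E ≤ prE P (fun ω' => E' ω' ∧ X k ω' = X k ω) * (2 * m * 2 ^ (n k + 1)) := by
      rwa [div_le_iff₀ (by positivity)] at h1
    have h4 : (1 / 2 : ℝ) ^ n k * 2 ^ (n k + 1) = 2 := by
      rw [pow_succ, ← mul_assoc, ← mul_pow]
      norm_num
    calc (1 / 2 : ℝ) ^ n k = (1 / 2 : ℝ) ^ n k * 1 := by ring
      _ ≤ (1 / 2 : ℝ) ^ n k * (2 * (q + 1) ^ Fintype.card κ * (prE P (fun ω' => E' ω' ∧ X k ω' = X k ω) * (2 * m * 2 ^ (n k + 1)))) := by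
          refine mul_le_mul_of_nonneg_left (h2.trans ?_) (by positivity)
          exact mul_le_mul_of_nonneg_left h3 (by positivity)
      _ = ((1 / 2 : ℝ) ^ n k * 2 ^ (n k + 1)) * (4 * m * (q + 1) ^ Fintype.card κ * prE P (fun ω' => E' ω' ∧ X k ω' = X k ω)) := by
          ring
      _ = 8 * m * (q + 1) ^ Fintype.card κ * prE P (fun ω' => E' ω' ∧ X k ω' = X k ω) := by
          rw [h4]; ring

end fin

/-! ### change of variables in `Cnt` and `Unf` -/

section congr

variable {S : Sys} {α α' β β' : Type*}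

/-- `Z'` determines `Z`, `(X, Z')` determines `X'` -/
theorem cnt_of {X : S.RV α} {Z : S.RV β} {X' : S.RV α'} {Z' : S.RV β'} {r : ℝ} (h : Cnt S X Z r)
    (hZ : Sys.Fn Z Z') (hX : Sys.Fn X' (Sys.pr X Z')) : Cnt S X' Z' r := by
  classical
  intro ε hε
  filter_upwards [h ε hε, hZ, hX] with i h1 h2 h3 ω hω
  obtain ⟨U, hU, hU'⟩ := h1 ω hω
  set A : Finset (S.Ω i) := univ.filter fun ω' => 0 < (S.P i).w ω' ∧ Z' i ω' = Z' i ω with hA
  have hmem : ∀ ω', ω' ∈ A ↔ (0 < (S.P i).w ω' ∧ Z' i ω' = Z' i ω) := fun ω' => by simp [hA]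
  refine ⟨A.image (X' i), le_trans ?_ hU, fun ω' hω' e => Finset.mem_image_of_mem _ ((hmem ω').2 ⟨hω', e⟩)⟩
  have hch : ∀ x' : α', ∃ ω' : S.Ω i, x' ∈ A.image (X' i) → (ω' ∈ A ∧ X' i ω' = x') := by
    intro x'
    by_cases hx : x' ∈ A.image (X' i)
    · obtain ⟨ω', h4, h5⟩ := Finset.mem_image.1 hx
      exact ⟨ω', fun _ => ⟨h4, h5⟩⟩
    · exact ⟨ω, fun h => absurd h hx⟩
  choose f hf using hch
  have hcard : (A.image (X' i)).card ≤ U.card := by
    refine Finset.card_le_card_of_injOn (fun x' => X i (f x')) ?_ ?_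
    · intro x' hx'
      obtain ⟨h4, -⟩ := hf x' hx'
      obtain ⟨h5, h6⟩ := (hmem _).1 h4
      exact hU' _ h5 (h2 _ _ h5 hω h6)
    · intro x' hx' y' hy' e
      obtain ⟨h4, h5⟩ := hf x' hx'
      obtain ⟨h6, h7⟩ := hf y' hy'
      obtain ⟨h8, h9⟩ := (hmem _).1 h4
      obtain ⟨h10, h11⟩ := (hmem _).1 h6
      rw [← h5, ← h7]
      exact h3 _ _ h8 h10 (Prod.ext e (h9.trans h11.symm))
  exact_mod_cast hcard

theorem cnt_mono {X : S.RV α} {Z : S.RV β} {r r' : ℝ} (h : Cnt S X Z r) (hr : r ≤ r') : Cnt S X Z r' := by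
  intro ε hε
  filter_upwards [h ε hε] with i h1 ω hω
  obtain ⟨U, hU, hU'⟩ := h1 ω hω
  refine ⟨U, hU.trans ?_, hU'⟩
  exact Real.rpow_le_rpow_of_exponent_le (by norm_num)
    (mul_le_mul_of_nonneg_right (by linarith) (Nat.cast_nonneg _))

theorem unf_mono {X : S.RV α} {r r' : ℝ} (h : Unf S X r) (hr : r' ≤ r) : Unf S X r' := by
  intro ε hε
  filter_upwards [h ε hε] with i h1 ω
  refine (h1 ω).trans ?_
  exact Real.rpow_le_rpow_of_exponent_le (by norm_num)
    (mul_le_mul_of_nonneg_right (by linarith) (Nat.cast_nonneg _))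

theorem pr_zero_of {Ω : Type} [Fintype Ω] (P : Law Ω) {α : Type*} (X : Ω → α) (x : α)
    (h : ∀ ω, 0 < P.w ω → X ω ≠ x) : P.pr X x = 0 := by
  classical
  unfold Law.pr
  refine Finset.sum_eq_zero fun ω hω => ?_
  have h1 := (Finset.mem_filter.1 hω).2
  by_contra hne
  exact h ω (lt_of_le_of_ne (P.nn ω) (Ne.symm hne)) h1

theorem pr_le_pr_of {Ω : Type} [Fintype Ω] (P : Law Ω) {α β : Type*} (X : Ω → α) (Y : Ω → β) (x : α) (y : β)
    (h : ∀ ω, 0 < P.w ω → Y ω = y → X ω = x) : P.pr Y y ≤ P.pr X x := by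
  classical
  unfold Law.pr
  rw [Finset.sum_filter, Finset.sum_filter]
  refine Finset.sum_le_sum fun ω _ => ?_
  rcases (P.nn ω).eq_or_lt with h0 | h0
  · rw [← h0]; simp
  · by_cases hy : Y ω = y
    · rw [if_pos hy, if_pos (h ω h0 hy)]
    · rw [if_neg hy]
      split_ifs
      · exact h0.le
      · exact le_rfl

/-- `X'` determines `X` -/
theorem unf_of {X : S.RV α} {X' : S.RV α'} {r : ℝ} (h : Unf S X r) (hf : Sys.Fn X X') : Unf S X' r := by
  intro ε hε
  filter_upwards [h ε hε, hf] with i h1 h2 ω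
  by_cases hex : ∃ ω', 0 < (S.P i).w ω' ∧ X' i ω' = X' i ω
  · obtain ⟨ω', hw, e⟩ := hex
    refine le_trans ?_ (h1 ω')
    rw [← e]
    exact pr_le_pr_of _ _ _ _ _ fun ω'' hw'' e'' => h2 ω'' ω' hw'' hw e''
  · push Not at hex
    rw [pr_zero_of _ _ _ hex]
    positivity

end congr

/-- every value of `X` on the support has probability at least `2^(-r L - o(L))` -/
def Low (S : Sys) {α : Type*} (X : S.RV α) (r : ℝ) : Prop :=
  ∀ ε : ℝ, 0 < ε → ∀ᶠ i in (uf : Filter ℕ), ∀ ω, 0 < (S.P i).w ω →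
    (2 : ℝ) ^ ((-r - ε) * S.L i) ≤ (S.P i).pr (X i) (X i ω)

/-! ### the regularisation -/

/-- the tuple of the variables in `J` -/
def tup {S : Sys} {ι : Type} {α : ι → Type} (V : ∀ j, S.RV (α j)) (J : Finset ι) : S.RV ((j : J) → α j) :=
  fun i ω j => V j i ω

section tup

variable {S : Sys} {ι : Type} {α : ι → Type} (V : ∀ j, S.RV (α j))

theorem tup_fn {J J' : Finset ι} (h : J ⊆ J') : Sys.Fn (tup V J) (tup V J') :=
  Eventually.of_forall fun _ _ _ _ _ e => by
    funext j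
    exact congrFun e ⟨j.1, h j.2⟩

theorem fn_tup {J : Finset ι} {j : ι} (h : j ∈ J) : Sys.Fn (V j) (tup V J) :=
  Eventually.of_forall fun _ _ _ _ _ e => congrFun e ⟨j, h⟩

theorem tame_tup (hV : ∀ j, Sys.Tame (V j)) (J : Finset ι) : Sys.Tame (tup V J) := by
  classical
  induction J using Finset.induction_on with
  | empty =>
    refine ⟨0, Eventually.of_forall fun i => ?_⟩
    rw [zero_mul]
    have h1 : (S.P i).H (tup V ∅ i) ≤ (S.P i).H (fun _ : S.Ω i => ()) :=
      Stk.H_mono' _ fun _ _ _ _ _ => funext fun j => absurd j.2 (Finset.notMem_empty _)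
    have h2 : (S.P i).H (fun _ : S.Ω i => ()) ≤ Real.log (Fintype.card Unit) := (S.P i).H_le_log_card _
    simp only [Fintype.card_unit, Nat.cast_one, Real.log_one] at h2
    exact h1.trans h2
  | insert a J ha ih =>
    refine Sys.Tame.mono ((hV a).pr ih) (Eventually.of_forall fun i ω ω' _ _ e => ?_)
    have e1 := congrArg Prod.fst e
    have e2 := congrArg Prod.snd e
    funext j
    rcases Finset.mem_insert.1 j.2 with h | h
    · obtain ⟨j, hj⟩ := j
      obtain rfl : j = a := h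
      exact e1
    · exact congrFun e2 ⟨j.1, h⟩

end tup

theorem on_pr_le {Ω : Type} [Fintype Ω] {P : Law Ω} {E : Ω → Prop} (h : 0 < prE P E) {α : Type*} (X : Ω → α) (x : α) :
    (on P E).pr X x ≤ P.pr X x / prE P E := by
  classical
  unfold Law.pr
  rw [Finset.sum_div]
  refine Finset.sum_le_sum fun ω _ => ?_
  rw [on_w h]
  split_ifs
  · exact le_rfl
  · exact div_nonneg (P.nn ω) h.le

/-- polynomial factors are negligible -/
theorem poly_small (S : Sys) (C ε : ℝ) (hC : 0 ≤ C) (hε : 0 < ε) (m : ℕ) :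
    ∀ᶠ i in (uf : Filter ℕ), 2 * (C * S.L i + 1) ^ m ≤ (2 : ℝ) ^ (ε * S.L i) := by
  have hb : 0 < ε * Real.log 2 := mul_pos hε (Real.log_pos (by norm_num))
  have h1 := (isLittleO_pow_exp_pos_mul_atTop m hb).bound
    (show (0:ℝ) < 1 / (2 * (C + 1) ^ m) by positivity)
  have h2 : Tendsto (fun i => (S.L i : ℝ)) (uf : Filter ℕ) atTop := tendsto_natCast_atTop_atTop.comp S.Ltop
  filter_upwards [h2.eventually h1, h2.eventually_ge_atTop 1] with i h3 h4
  rw [Real.norm_of_nonneg (by positivity), Real.norm_of_nonneg (by positivity)] at h3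
  have h5 : (2 : ℝ) ^ (ε * S.L i) = Real.exp (ε * Real.log 2 * S.L i) := by
    rw [Real.rpow_def_of_pos (by norm_num)]
    congr 1
    ring
  rw [h5]
  have h6 : (C * S.L i + 1) ^ m ≤ ((C + 1) * S.L i) ^ m := by
    refine pow_le_pow_left₀ (by positivity) ?_ _
    nlinarith
  calc 2 * (C * S.L i + 1) ^ m ≤ 2 * ((C + 1) * S.L i) ^ m := by linarith
    _ = 2 * (C + 1) ^ m * (S.L i : ℝ) ^ m := by rw [mul_pow]; ring
    _ ≤ 2 * (C + 1) ^ m * (1 / (2 * (C + 1) ^ m) * Real.exp (ε * Real.log 2 * S.L i)) :=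
        mul_le_mul_of_nonneg_left h3 (by positivity)
    _ = Real.exp (ε * Real.log 2 * S.L i) := by
        have : (C + 1) ^ m ≠ 0 := by positivity
        field_simp

/-- **[REG]** regularisation of a finite family of tame variables -/
theorem exists_reg (S : Sys) {ι : Type} [Fintype ι] {α : ι → Type} (V : ∀ j, S.RV (α j))
    (hV : ∀ j, Sys.Tame (V j)) :
    ∃ (S' : Sys) (d : Dns S' S), (∀ i ω, 0 < (S'.P i).w ω → 0 < (S.P i).w (d.π i ω)) ∧
      (∀ J, Sys.Tame (d.pull (tup V J))) ∧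
      (∀ J, Unf S' (d.pull (tup V J)) (S'.h (d.pull (tup V J)))) ∧
      (∀ J J', Cnt S' (d.pull (tup V J)) (d.pull (tup V J')) (S'.hc (d.pull (tup V J)) (d.pull (tup V J')))) ∧
      ∀ J, Low S' (d.pull (tup V J)) (S'.h (d.pull (tup V J))) := by
  classical
  choose E n q hq hE hpos hn hb hlo using fun i => fin_reg' (S.P i) (fun J : Finset ι => tup V J i) Finset.univ
    (fun J ω ω' e => by
      funext j
      exact congrFun e ⟨j.1, Finset.mem_univ _⟩)
  set m : ℕ := Fintype.card (Finset ι) with hm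
  have hp0 : ∀ i, 0 < 1 / (4 * ((q i : ℝ) + 1) ^ m) := fun i => by positivity
  have hE0 : ∀ i, 0 < prE (S.P i) (E i) := fun i => (hp0 i).trans_le (hE i)
  have hEinv : ∀ i, 1 / prE (S.P i) (E i) ≤ 2 * (2 * ((q i : ℝ) + 1) ^ m) := fun i => by
    rw [div_le_iff₀ (hE0 i)]
    have := hE i
    rw [div_le_iff₀ (by positivity)] at this
    linarith
  obtain ⟨C, hC⟩ := tame_tup V hV Finset.univ
  -- bound of `q`
  have hq2 : ∀ᶠ i in (uf : Filter ℕ), (q i : ℝ) ≤ 2 * |C| * S.L i := by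
    filter_upwards [hC] with i hi
    refine (hq i).trans ?_
    have hl2 : 0 < Real.log 2 := Real.log_pos (by norm_num)
    rw [div_le_iff₀ hl2]
    have h1 : C * S.nm i ≤ |C| * S.nm i := mul_le_mul_of_nonneg_right (le_abs_self C)
      (mul_nonneg (Nat.cast_nonneg _) hl2.le)
    unfold Sys.nm at h1
    have h2 : (S.P i).H (tup V univ i) ≤ |C| * (S.L i * Real.log 2) := hi.trans (by unfold Sys.nm; exact h1)
    nlinarith
  have hsm : ∀ ε : ℝ, 0 < ε → ∀ᶠ i in (uf : Filter ℕ), 1 / prE (S.P i) (E i) ≤ (2 : ℝ) ^ (ε * S.L i) := by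
    intro ε hε
    filter_upwards [hq2, poly_small S (2 * |C|) (ε / 2) (by positivity) (by positivity) m,
      poly_small S 0 (ε / 2) le_rfl (by positivity) 0] with i h1 h2 h2'
    refine (hEinv i).trans ?_
    have h3 : ((q i : ℝ) + 1) ^ m ≤ (2 * |C| * S.L i + 1) ^ m := pow_le_pow_left₀ (by positivity) (by linarith) _
    have h4 : (2 : ℝ) ^ (ε * S.L i) = (2 : ℝ) ^ (ε / 2 * S.L i) * (2 : ℝ) ^ (ε / 2 * S.L i) := by
      rw [← Real.rpow_add (by norm_num)]
      congr 1
      ring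
    rw [h4]
    have h5 : (2:ℝ) ≤ (2 : ℝ) ^ (ε / 2 * S.L i) := by simpa using h2'
    refine mul_le_mul h5 (le_trans ?_ h2) (by positivity) (by positivity)
    linarith
  let S' : Sys := ⟨S.Ω, S.fin, fun i => on (S.P i) (E i), S.L, S.Ltop⟩
  let d : Dns S' S :=
    { π := fun _ ω => ω
      L_eq := rfl
      dom := by
        intro ε hε
        filter_upwards [hsm ε hε] with i hi ω
        have h1 : (on (S.P i) (E i)).pr (fun ω => ω) ω = (on (S.P i) (E i)).w ω := Stk.pr_id _ ω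
        show (on (S.P i) (E i)).pr (fun ω => ω) ω ≤ _
        rw [h1, on_w (hE0 i)]
        split_ifs
        · rw [div_eq_mul_one_div, mul_comm]
          exact mul_le_mul_of_nonneg_right hi ((S.P i).nn ω)
        · exact mul_nonneg (by positivity) ((S.P i).nn ω) }
  have hsupp : ∀ i ω, 0 < (S'.P i).w ω → E i ω ∧ 0 < (S.P i).w ω := fun i ω h => on_pos (hE0 i) h
  have hUB : ∀ J, UB fun i => (n i J : ℝ) / S.L i := by
    intro J
    refine UB.of_le (C := 2 * |C|) (Eventually.of_forall fun i => by positivity) ?_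
    filter_upwards [hq2, S.L_pos] with i h1 h2
    have h3 : (0:ℝ) < S.L i := by exact_mod_cast h2
    rw [div_le_iff₀ h3]
    refine le_trans ?_ h1
    exact_mod_cast hn i J
  set r : Finset ι → ℝ := fun J => ulim fun i => (n i J : ℝ) / S.L i with hr
  have hnr : ∀ (J : Finset ι) (ε : ℝ), 0 < ε → ∀ᶠ i in (uf : Filter ℕ),
      (r J - ε) * S.L i ≤ n i J ∧ (n i J : ℝ) ≤ (r J + ε) * S.L i := by
    intro J ε hε
    have h1 := (hUB J).tendsto
    filter_upwards [h1.eventually (gt_mem_nhds (show r J < r J + ε by linarith)),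
      h1.eventually (lt_mem_nhds (show r J - ε < r J by linarith)), S.L_pos] with i h2 h3 h4
    have h5 : (0:ℝ) < S.L i := by exact_mod_cast h4
    constructor
    · exact ((lt_div_iff₀ h5).1 h3).le
    · exact ((div_lt_iff₀ h5).1 h2).le
  have hhalf : ∀ k : ℕ, (1 / 2 : ℝ) ^ k = (2 : ℝ) ^ (-(k : ℝ)) := fun k => by
    rw [Real.rpow_neg (by norm_num), Real.rpow_natCast, one_div, inv_pow]
  -- uniform
  have hUnf : ∀ J, Unf S' (d.pull (tup V J)) (r J) := by
    intro J ε hε
    filter_upwards [hsm (ε / 2) (by positivity), hnr J (ε / 2) (by positivity)] with i h1 h2 ω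
    show (on (S.P i) (E i)).pr (tup V J i) (tup V J i ω) ≤ (2 : ℝ) ^ ((-r J + ε) * S.L i)
    by_cases hex : ∃ ω', E i ω' ∧ tup V J i ω' = tup V J i ω
    · obtain ⟨ω', hw, e⟩ := hex
      refine (on_pr_le (hE0 i) _ _).trans ?_
      rw [← e, div_eq_mul_one_div]
      have h3 := (hb i ω' hw J).2
      have h4 : (2 : ℝ) ^ ((-r J + ε) * S.L i) = (2 : ℝ) ^ ((-r J + ε / 2) * S.L i) * (2 : ℝ) ^ (ε / 2 * S.L i) := by
        rw [← Real.rpow_add (by norm_num)]
        congr 1
        ring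
      rw [h4]
      refine mul_le_mul (h3.trans ?_) h1 (by have := hE0 i; positivity) (by positivity)
      rw [hhalf]
      refine Real.rpow_le_rpow_of_exponent_le (by norm_num) ?_
      have := h2.1
      nlinarith
    · push Not at hex
      rw [pr_zero_of _ _ _ fun ω' h' => hex ω' (on_pos (hE0 i) h').1]
      positivity
  -- counts
  have hCnt : ∀ J J', Cnt S' (d.pull (tup V J)) (d.pull (tup V J')) (r (J ∪ J') - r J') := by
    intro J J' ε hε
    filter_upwards [poly_small S 0 (ε / 3) le_rfl (by positivity) 1, hnr (J ∪ J') (ε / 3) (by positivity),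
      hnr J' (ε / 3) (by positivity)] with i h1 h2 h3 ω hω
    obtain ⟨hωE, hω0⟩ := hsupp i ω hω
    set A : Finset (S.Ω i) := univ.filter fun ω' => E i ω' ∧ tup V J' i ω' = tup V J' i ω with hA
    have hmem : ∀ ω', ω' ∈ A ↔ (E i ω' ∧ tup V J' i ω' = tup V J' i ω) := fun ω' => by simp [hA]
    refine ⟨A.image (tup V J i), ?_, fun ω' hω' e =>
      Finset.mem_image_of_mem _ ((hmem ω').2 ⟨(hsupp i ω' hω').1, e⟩)⟩
    have hlow : ∀ u ∈ A.image (tup V J i), (1 / 2 : ℝ) ^ (n i (J ∪ J') + 1) ≤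
        (S.P i).pr (fun ω' => (tup V J i ω', tup V J' i ω')) (u, tup V J' i ω) := by
      intro u hu
      obtain ⟨ω', h4, h5⟩ := Finset.mem_image.1 hu
      obtain ⟨h6, h7⟩ := (hmem ω').1 h4
      refine ((hb i ω' h6 (J ∪ J')).1).trans ?_
      refine pr_le_pr_of _ _ _ _ _ fun ω'' _ e'' => ?_
      rw [← h5, ← h7]
      refine Prod.ext ?_ ?_
      · funext j
        exact congrFun e'' ⟨j.1, Finset.mem_union_left _ j.2⟩
      · funext j
        exact congrFun e'' ⟨j.1, Finset.mem_union_right _ j.2⟩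
    have hup : ∑ u ∈ A.image (tup V J i), (S.P i).pr (fun ω' => (tup V J i ω', tup V J' i ω')) (u, tup V J' i ω) ≤
        (S.P i).pr (tup V J' i) (tup V J' i ω) := by
      unfold Law.pr
      rw [← Finset.sum_biUnion]
      · refine Finset.sum_le_sum_of_subset_of_nonneg ?_ fun ω _ _ => (S.P i).nn ω
        intro ω' h4
        obtain ⟨u, -, h5⟩ := Finset.mem_biUnion.1 h4
        simp only [mem_filter, mem_univ, true_and, Prod.mk.injEq] at h5 ⊢
        exact h5.2
      · intro u _ u' _ hne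
        rw [Function.onFun, Finset.disjoint_left]
        intro ω' h4 h5
        simp only [mem_filter, mem_univ, true_and, Prod.mk.injEq] at h4 h5
        exact hne (h4.1.symm.trans h5.1)
    have h4 : ((A.image (tup V J i)).card : ℝ) * (1 / 2 : ℝ) ^ (n i (J ∪ J') + 1) ≤ (1 / 2 : ℝ) ^ n i J' := by
      refine le_trans ?_ (hup.trans (hb i ω hωE J').2)
      rw [← nsmul_eq_mul]
      exact Finset.card_nsmul_le_sum _ _ _ hlow
    have h5 : ((A.image (tup V J i)).card : ℝ) ≤ 2 * ((2 : ℝ) ^ (n i (J ∪ J')) * (1 / 2 : ℝ) ^ n i J') := by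
      have h6 : (0:ℝ) < (1 / 2 : ℝ) ^ (n i (J ∪ J') + 1) := by positivity
      rw [← le_div_iff₀ h6] at h4
      refine h4.trans (le_of_eq ?_)
      rw [pow_succ, one_div_pow, one_div_pow]
      field_simp
    refine h5.trans ?_
    have h6 : (2 : ℝ) ≤ (2 : ℝ) ^ (ε / 3 * S.L i) := by
      simpa using h1
    have h7 : (2 : ℝ) ^ (n i (J ∪ J')) * (1 / 2 : ℝ) ^ n i J' = (2 : ℝ) ^ ((n i (J ∪ J') : ℝ) - n i J') := by
      rw [hhalf, ← Real.rpow_natCast, ← Real.rpow_add (by norm_num), sub_eq_add_neg]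
    rw [h7]
    refine (mul_le_mul_of_nonneg_right h6 (by positivity)).trans ?_
    rw [← Real.rpow_add (by norm_num)]
    refine Real.rpow_le_rpow_of_exponent_le (by norm_num) ?_
    show ε / 3 * S.L i + ((n i (J ∪ J') : ℝ) - n i J') ≤ (r (J ∪ J') - r J' + ε) * S.L i
    have h8 := h2.2
    have h9 := h3.1
    nlinarith
  have hr0 : r ∅ = 0 := by
    refine ulim_eq ?_
    refine tendsto_const_nhds.congr' ?_
    filter_upwards with i
    obtain ⟨ω, hω⟩ : ∃ ω, E i ω := by
      by_contra hcon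
      push Not at hcon
      have : prE (S.P i) (E i) = 0 := by
        unfold prE
        rw [Finset.filter_false_of_mem fun ω _ => hcon ω, Finset.sum_empty]
      exact absurd (hE0 i) (by rw [this]; exact lt_irrefl _)
    have h1 := (hb i ω hω ∅).2
    have h2 : (S.P i).pr (tup V ∅ i) (tup V ∅ i ω) = 1 := by
      refine le_antisymm ((S.P i).pr_le_one _ _) ?_
      rw [← (S.P i).sum_one]
      unfold Law.pr
      refine Finset.sum_le_sum_of_subset_of_nonneg ?_ fun ω _ _ => (S.P i).nn ω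
      intro ω' _
      simp only [mem_filter, mem_univ, true_and]
      funext j
      exact absurd j.2 (Finset.notMem_empty _)
    have h3 : n i ∅ = 0 := by
      by_contra hne
      have h4 : (1 / 2 : ℝ) ^ n i ∅ < 1 := pow_lt_one₀ (by norm_num) (by norm_num) hne
      have h5 : (1:ℝ) ≤ (1 / 2 : ℝ) ^ n i ∅ := h2 ▸ h1
      linarith
    rw [h3]
    simp
  have hCnt1 : ∀ J, Cnt S' (d.pull (tup V J)) (one (S := S')) (r J) := by
    intro J
    have h1 := hCnt J ∅
    rw [hr0, sub_zero, Finset.union_empty] at h1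
    refine cnt_of h1 (Eventually.of_forall fun _ _ _ _ _ _ => ?_) (Eventually.of_forall fun _ _ _ _ _ e => congrArg Prod.fst e)
    funext j
    exact absurd j.2 (Finset.notMem_empty _)
  have htame : ∀ J, Sys.Tame (d.pull (tup V J)) := fun J => cnt_tame (hCnt1 J)
  have hh : ∀ J, S'.h (d.pull (tup V J)) = r J := fun J => unf_cnt_h (hUnf J) (hCnt1 J)
  have hhc : ∀ J J', S'.hc (d.pull (tup V J)) (d.pull (tup V J')) = r (J ∪ J') - r J' := by
    intro J J'
    have h1 := Sys.hc_pair (htame J') (htame J) (one (S := S'))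
    have h2 : S'.hc (Sys.pr (d.pull (tup V J')) (d.pull (tup V J))) (one (S := S')) = r (J ∪ J') := by
      rw [← hh (J ∪ J')]
      refine Sys.hc_congr (Eventually.of_forall fun _ _ _ _ _ e => ?_) (Eventually.of_forall fun _ _ _ _ _ e => ?_)
        (Eventually.of_forall fun _ _ _ _ _ e => e) (Eventually.of_forall fun _ _ _ _ _ e => e)
      · have e1 := congrArg Prod.fst e
        refine Prod.ext ?_ ?_
        · funext j
          exact congrFun e1 ⟨j.1, Finset.mem_union_right _ j.2⟩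
        · funext j
          exact congrFun e1 ⟨j.1, Finset.mem_union_left _ j.2⟩
      · have e1 := congrArg Prod.fst e
        have e2 := congrArg Prod.fst e1
        have e3 := congrArg Prod.snd e1
        funext j
        rcases Finset.mem_union.1 j.2 with h | h
        · exact congrFun e3 ⟨j.1, h⟩
        · exact congrFun e2 ⟨j.1, h⟩
    have h3 : S'.hc (d.pull (tup V J)) (Sys.pr (d.pull (tup V J')) (one (S := S'))) =
        S'.hc (d.pull (tup V J)) (d.pull (tup V J')) := by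
      refine Sys.hc_congr (Eventually.of_forall fun _ _ _ _ _ e => congrArg Prod.fst e)
        (Eventually.of_forall fun _ _ _ _ _ e => congrArg Prod.fst e)
        (Eventually.of_forall fun _ _ _ _ _ e => Prod.ext e rfl)
        (Eventually.of_forall fun _ _ _ _ _ e => congrArg Prod.fst e)
    have h4 : S'.hc (d.pull (tup V J')) (one (S := S')) = r J' := hh J'
    linarith
  -- lower bounds
  have hLow : ∀ J, Low S' (d.pull (tup V J)) (r J) := by
    intro J ε hε
    filter_upwards [hq2, poly_small S (2 * |C|) (ε / 3) (by positivity) (by positivity) m,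
      poly_small S (4 * m) (ε / 3) (by positivity) (by positivity) 1, hnr J (ε / 3) (by positivity), S.L_pos]
      with i h1 h2 h3 h4 h4' ω hω
    show (2 : ℝ) ^ ((-r J - ε) * S.L i) ≤ (on (S.P i) (E i)).pr (tup V J i) (tup V J i ω)
    have h5 : prE (S.P i) (fun ω' => E i ω' ∧ tup V J i ω' = tup V J i ω) ≤
        (on (S.P i) (E i)).pr (tup V J i) (tup V J i ω) := by
      unfold Law.pr prE
      rw [Finset.sum_filter, Finset.sum_filter]
      refine Finset.sum_le_sum fun ω' _ => ?_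
      by_cases hx : tup V J i ω' = tup V J i ω
      · rw [if_pos hx, on_w (hE0 i)]
        by_cases hEω : E i ω'
        · rw [if_pos ⟨hEω, hx⟩, if_pos hEω]
          rw [le_div_iff₀ (hE0 i)]
          have h7 := (S.P i).nn ω'
          have h8 := prE_le_one (S.P i) (E i)
          nlinarith
        · rw [if_neg (fun h => hEω h.1), if_neg hEω]
      · rw [if_neg (fun h => hx h.2), if_neg hx]
    refine le_trans ?_ h5
    have h6 := hlo i ω (hsupp i ω hω).1 J
    have h7 : ((q i : ℝ) + 1) ^ m ≤ (2 * |C| * S.L i + 1) ^ m := pow_le_pow_left₀ (by positivity) (by linarith) _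
    have h8 : (8 * m * ((q i : ℝ) + 1) ^ m : ℝ) ≤ (2 : ℝ) ^ (2 * ε / 3 * S.L i) := by
      have e : (2 : ℝ) ^ (2 * ε / 3 * S.L i) = (2 : ℝ) ^ (ε / 3 * S.L i) * (2 : ℝ) ^ (ε / 3 * S.L i) := by
        rw [← Real.rpow_add (by norm_num)]
        congr 1
        ring
      rw [e]
      have h9 : (4 * m : ℝ) ≤ (2 : ℝ) ^ (ε / 3 * S.L i) := by
        refine le_trans ?_ h3
        have h10 : (1:ℝ) ≤ S.L i := by exact_mod_cast h4'
        have h11 : (0:ℝ) ≤ m := Nat.cast_nonneg _
        rw [pow_one]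
        nlinarith [mul_le_mul_of_nonneg_left h10 h11]
      calc (8 * m * ((q i : ℝ) + 1) ^ m : ℝ) = (4 * m) * (2 * ((q i : ℝ) + 1) ^ m) := by ring
        _ ≤ (2 : ℝ) ^ (ε / 3 * S.L i) * (2 : ℝ) ^ (ε / 3 * S.L i) :=
            mul_le_mul h9 (by linarith) (by positivity) (by positivity)
    have h9 : 0 ≤ prE (S.P i) (fun ω' => E i ω' ∧ tup V J i ω' = tup V J i ω) := prE_nonneg _ _
    have h10 : (1 / 2 : ℝ) ^ n i J ≤ (2 : ℝ) ^ (2 * ε / 3 * S.L i) *
        prE (S.P i) (fun ω' => E i ω' ∧ tup V J i ω' = tup V J i ω) := h6.trans (mul_le_mul_of_nonneg_right h8 h9)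
    have h11 : (2 : ℝ) ^ ((-r J - ε) * S.L i) * (2 : ℝ) ^ (2 * ε / 3 * S.L i) ≤ (1 / 2 : ℝ) ^ n i J := by
      rw [← Real.rpow_add (by norm_num), hhalf]
      refine Real.rpow_le_rpow_of_exponent_le (by norm_num) ?_
      have := h4.2
      nlinarith
    have h12 : (0:ℝ) < (2 : ℝ) ^ (2 * ε / 3 * S.L i) := by positivity
    have h13 := h11.trans h10
    rw [mul_comm] at h13
    exact le_of_mul_le_mul_left h13 h12
  refine ⟨S', d, fun i ω h => (hsupp i ω h).2, htame, fun J => by rw [hh]; exact hUnf J, fun J J' => by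
    rw [hhc]; exact hCnt J J', fun J => by rw [hh]; exact hLow J⟩

/-- transfer of flatness to equivalent variables -/
theorem flat_congr {S : Sys} {α α' β β' : Type*} {X : S.RV α} {Z : S.RV β} {X' : S.RV α'} {Z' : S.RV β'}
    (h : Cnt S X Z (S.hc X Z)) (h1 : Sys.Fn X X') (h2 : Sys.Fn X' X) (h3 : Sys.Fn Z Z') (h4 : Sys.Fn Z' Z) :
    Cnt S X' Z' (S.hc X' Z') := by
  have e : S.hc X Z = S.hc X' Z' := by
    refine Sys.hc_congr ?_ ?_ h3 h4
    · filter_upwards [h1] with i hi ω ω' p p' e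
      exact hi ω ω' p p' (congrArg Prod.fst e)
    · filter_upwards [h2] with i hi ω ω' p p' e
      exact hi ω ω' p p' (congrArg Prod.fst e)
  rw [← e]
  refine cnt_of h h3 ?_
  filter_upwards [h2] with i hi ω ω' p p' e
  exact hi ω ω' p p' (congrArg Prod.fst e)

theorem unf_congr {S : Sys} {α α' : Type*} {X : S.RV α} {X' : S.RV α'}
    (h : Unf S X (S.h X)) (h1 : Sys.Fn X X') (h2 : Sys.Fn X' X) : Unf S X' (S.h X') := by
  have e : S.h X = S.h X' := by
    refine Sys.hc_congr ?_ ?_ (Eventually.of_forall fun _ _ _ _ _ e => e) (Eventually.of_forall fun _ _ _ _ _ e => e)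
    · filter_upwards [h1] with i hi ω ω' p p' e
      exact hi ω ω' p p' (congrArg Prod.fst e)
    · filter_upwards [h2] with i hi ω ω' p p' e
      exact hi ω ω' p p' (congrArg Prod.fst e)
  rw [← e]
  exact unf_of h h1

/-- `X` determines `X'` -/
theorem low_of {S : Sys} {α α' : Type*} {X : S.RV α} {X' : S.RV α'} {r : ℝ} (h : Low S X r) (hf : Sys.Fn X' X) :
    Low S X' r := by
  intro ε hε
  filter_upwards [h ε hε, hf] with i h1 h2 ω hω
  refine (h1 ω hω).trans ?_
  exact pr_le_pr_of _ _ _ _ _ fun ω' hω' e => h2 ω' ω hω' hω e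

theorem low_congr {S : Sys} {α α' : Type*} {X : S.RV α} {X' : S.RV α'} (h : Low S X (S.h X)) (h1 : Sys.Fn X X')
    (h2 : Sys.Fn X' X) : Low S X' (S.h X') := by
  have e : S.h X = S.h X' := by
    refine Sys.hc_congr ?_ ?_ (Eventually.of_forall fun _ _ _ _ _ e => e) (Eventually.of_forall fun _ _ _ _ _ e => e)
    · filter_upwards [h1] with i hi ω ω' p p' e
      exact hi ω ω' p p' (congrArg Prod.fst e)
    · filter_upwards [h2] with i hi ω ω' p p' e
      exact hi ω ω' p p' (congrArg Prod.fst e)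
  rw [← e]
  exact low_of h h2

end Vale.Agent.P076.H803
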