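import Vale.Agent.P076.H803.WinG

/-!
# P076 / H803 : there is no good window (helper803)

`stWIN : StFIN → StWIN`.
-/

set_option autoImplicit false

namespace Vale.Agent.P076.H803

open Filter Topology Finset Vale.Agent.P127 Vale.Agent.P127.Stk Vale.Agent.P127.U Vale.Agent.P127.U.Sys
  Vale.Agent.P122.C2 Vale.Agent.P122.E Vale.Agent.P122.H518 Vale.Agent.P076.NS Vale.Agent.P076.BG
  Vale.Agent.P076.H732

/-- choice of the grid -/
theorem grid {N W s : ℕ} (hN : 1 ≤ N) (hW : 4 * N + 1 ≤ W) (hs : 4 * W ≤ s) : ∃ w S : ℕ, 1 ≤ w ∧ Even w ∧ Even S ∧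
    s - W ≤ S ∧ S + N * w ≤ s ∧ W ≤ 2 * (N * w) := by
  obtain ⟨q, hq⟩ : ∃ q : ℕ, (W - 1) / (2 * N) = q := ⟨_, rfl⟩
  have h1 : 2 * N * ((W - 1) / (2 * N)) ≤ W - 1 := Nat.mul_div_le _ _
  have h2 : W - 1 < (W - 1) / (2 * N) * (2 * N) + 2 * N := Nat.lt_div_mul_add (by omega)
  rw [hq] at h1 h2
  have e1 : N * (2 * q) = 2 * N * q := by ring
  have e2 : q * (2 * N) = 2 * N * q := by ring
  rw [e2] at h2
  have hq1 : 1 ≤ q := by
    rcases Nat.eq_zero_or_pos q with h0 | h0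
    · rw [h0, mul_zero] at h2
      omega
    · exact h0
  have hev : Even (2 * N * q) := ⟨N * q, by ring⟩
  obtain ⟨r, hr⟩ := hev
  refine ⟨2 * q, 2 * (s / 2) - N * (2 * q), by omega, ⟨q, by ring⟩, ⟨s / 2 - r, ?_⟩, ?_, ?_, ?_⟩
  · rw [e1]
    omega
  · rw [e1]
    omega
  · rw [e1]
    omega
  · rw [e1]
    omega

theorem stWIN (hFIN : StFIN) : StWIN := by
  obtain ⟨E, N, m₀, hE, hN, hfin⟩ := hFIN (3 / 10) (17 / 20) (by norm_num) (by norm_num) (by norm_num)
  refine ⟨E / 120, by positivity, fun h hh => ?_⟩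
  refine ⟨E * h / 120, ⌈(4 * N + 1 + 2 / E) / h⌉₊ + 1, by positivity, fun c1 hc1 K F hK0 hX s W ρ hW => ?_⟩
  have hK : 1 ≤ K := by omega
  have hKr : (0:ℝ) < K := by exact_mod_cast hK
  have hNr : (1:ℝ) ≤ N := by exact_mod_cast hN
  have hWr : 4 * (N:ℝ) + 1 + 2 / E ≤ W := by
    have h1 : (4 * (N:ℝ) + 1 + 2 / E) / h ≤ K := (Nat.le_ceil _).trans (by
      have : ⌈(4 * (N:ℝ) + 1 + 2 / E) / h⌉₊ ≤ K := by omega
      exact_mod_cast this)
    rw [div_le_iff₀ hh] at h1
    have h2 := hW.hw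
    linarith
  have h2E : 0 < 2 / E := by positivity
  have hWn : 4 * N + 1 ≤ W := by
    have : (4 * (N:ℝ) + 1) ≤ W := by linarith
    exact_mod_cast this
  obtain ⟨w, S, hw, ew, eS, hS, hSs, hWw⟩ := grid hN hWn hW.ws
  have hWwr : (W:ℝ) ≤ 2 * (N * w) := by exact_mod_cast hWw
  have hsK := hW.sK
  have hws := hW.ws
  have hNK : N * w ≤ K := by omega
  have hx : (W:ℝ) / K ≤ 2 * (N * w / K) := by
    rw [← mul_div_assoc]
    exact div_le_div_of_nonneg_right hWwr hKr.le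
  have hy : h ≤ (W:ℝ) / K := by
    rw [le_div_iff₀ hKr]
    exact hW.hw
  have hA := wa_of (E := E / 6) hX hW hK hw hN ew eS hS hSs (by
      have e : E / 120 * W / K = E / 120 * (W / K) := by ring
      rw [e]
      have := mul_le_mul_of_nonneg_left hx (show 0 ≤ E / 120 by positivity)
      linarith) (by
      have := mul_le_mul_of_nonneg_left (hy.trans hx) (show 0 ≤ E / 120 by positivity)
      linarith) (by positivity)
  obtain ⟨i0, hi0⟩ := (n_pos F).exists
  have hC := C_pos (F := F) (i := i0) hi0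
  obtain ⟨M, hM⟩ := exists_nat_ge ((1 + 2 * cg F) / F.C)
  rw [div_le_iff₀ hC] at hM
  set t : ℝ := 1 / ((2 * M + 1) * (1000 * (N:ℝ) ^ 2)) with ht
  have ht0 : 0 < t := by positivity
  have hwr : (1:ℝ) ≤ w := by exact_mod_cast hw
  have hev := ff_ev (t := t) hA (by positivity) hc1 ht0 hK
  have hev2 := const_small F.S (Ac F) (E / 3 * N * (w / K)) (by positivity)
  have hev3 : ∀ᶠ i in (uf : Filter ℕ), K * m₀ < F.S.L i := F.S.Ltop.eventually_gt_atTop _
  obtain ⟨i, hi, hi2, hi3, hi4⟩ := (hev.and (hev2.and (hev3.and (n_pos F)))).exists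
  have hL : (F.S.L i : ℝ) = K * F.n i := by rw [F.L_eq i]; push_cast; ring
  obtain ⟨P, Th, v, μ, hcfg⟩ := cfg_of hi (by positivity) hN hw hNK hi4 (by positivity) (by positivity) (M := M) (by linarith) (by
      rw [ht]
      have h1 : (0:ℝ) < 2 * M + 1 := by positivity
      have h2 : (0:ℝ) < 1000 * (N:ℝ) ^ 2 := by positivity
      refine le_of_eq ?_
      field_simp) (by
      refine hi2.trans (le_of_eq ?_)
      congr 1
      rw [hL]
      push_cast
      field_simp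
      ring) (by
      have h1 : (1:ℝ) ≤ E * (W / 2) := by
        have h3 : E * (2 / E) = 2 := by field_simp
        have h4 : E * (2 / E) ≤ E * W := mul_le_mul_of_nonneg_left (by linarith) hE.le
        linarith
      have h2 : E * (W / 2) ≤ E * (N * w) := mul_le_mul_of_nonneg_left (by linarith) hE.le
      linarith)
  have e : 3 * (2 * (E / 6)) = E := by ring
  rw [e] at hcfg
  refine hfin (w * F.n i) ρ _ ?_ hW.r0 hW.r1 P Th v μ hcfg
  rw [F.L_eq i] at hi3
  have h1 : m₀ < F.n i := Nat.lt_of_mul_lt_mul_left hi3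
  calc m₀ ≤ 1 * F.n i := by omega
    _ ≤ w * F.n i := Nat.mul_le_mul_right _ hw

end Vale.Agent.P076.H803
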