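import Vale.Agent.P076.BG.Flags
import Vale.Agent.P076.NS.Geo
import Vale.Agent.P076.H803.Reg

/-!
# P076 / H803 : the flat facts in a good window (helper803)

`WA` : counts and upper bounds of probabilities at the grid scales of a good window; `wa_of` : from `TGX` and `Win`.
Grid level `k` (from the bottom): balls of radius `2 ^ ((S + k w) n)`, `k ≤ N`.
-/

set_option autoImplicit false

namespace Vale.Agent.P076.H803

open Filter Topology Finset Vale.Agent.P127 Vale.Agent.P127.Stk Vale.Agent.P127.U Vale.Agent.P127.U.Sys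
  Vale.Agent.P122.C2 Vale.Agent.P122.E Vale.Agent.P122.H518 Vale.Agent.P076.NS Vale.Agent.P076.BG

variable {K : ℕ}

/-- flat facts in the window -/
structure WA (F : Flg K) (c1 E ρ d : ℝ) (N w S : ℕ) : Prop where
  w1 : 1 ≤ w
  N1 : 1 ≤ N
  NK : N * w ≤ K
  SK : S + N * w ≤ 2 * K
  a1 : ∀ k l, k ≤ l → l ≤ N → Cnt F.S (bl F (S + k * w)) (bl F (S + l * w)) ((3 * ρ * ((l : ℝ) - k) + E * N) * (w / K))
  a2 : ∀ k l, k ≤ l → l ≤ N → Cnt F.S (pj F (S + k * w) ((l - k) * w)) (Sys.pr (bl F (S + l * w)) (F.Y ((l - k) * w)))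
    ((2 * ρ * ((l : ℝ) - k) + E * N) * (w / K))
  a3 : Cnt F.S (F.Y (N * w)) (bl F (S + N * w)) ((d + E) * N * (w / K))
  a4 : Unf F.S (bl F S) (F.S.h (bl F (S + N * w)) + (3 * ρ - E) * N * (w / K))
  a5 : Unf F.S (Sys.pr (bl F S) (F.Y (N * w))) (F.S.h (bl F S) + (d - E) * N * (w / K))
  a6 : ∀ j, j ≤ N → Unf F.S (Sys.pr (bl F S) (F.Y (j * w))) (F.S.h (bl F S) + (2 / 3 * j - E * N) * (w / K))
  a7 : Cnt F.S (bl F (S + N * w)) (one (S := F.S)) (F.S.h (bl F (S + N * w)) + E * N * (w / K))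
  a8 : Cnt F.S (bl F S) (one (S := F.S)) (F.S.h (bl F S) + E * N * (w / K))
  spr : ∀ ε : ℝ, 0 < ε → ∀ᶠ i in (uf : Filter ℕ), ∀ ω0, 0 < (F.S.P i).w ω0 → ∀ θ r : ℝ,
    (F.S.P i).ex (fun ω => if F.x i ω = F.x i ω0 ∧ |fn θ (F.s i 1 (F.Y 1 i ω)) - r| ≤ F.C / 2 ^ F.n i then 1 else 0) ≤
      (2:ℝ) ^ ((ε - c1 / K) * F.S.L i) * (F.S.P i).pr (F.x i) (F.x i ω0)

section

variable {F : Flg K}

theorem a_add {s0 s1 s2 : ℕ} (h1 : s0 ≤ s1) (h2 : s1 ≤ s2) :
    F.S.hc (bl F s0) (bl F s2) = F.S.hc (bl F s0) (bl F s1) + F.S.hc (bl F s1) (bl F s2) := by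
  have t0 := BG.tame_bl F s0
  have t1 := BG.tame_bl F s1
  have e1 := hc_pair t1 t0 (bl F s2)
  have e2 : F.S.hc (Sys.pr (bl F s1) (bl F s0)) (bl F s2) = F.S.hc (bl F s0) (bl F s2) :=
    hc_congr (fpr (ftr (fn_bl_bl F h1) (ffst _ _)) (ffst _ _)) (ftr (fsnd _ _) (ffst _ _)) (frf _) (frf _)
  have e3 : F.S.hc (bl F s0) (Sys.pr (bl F s1) (bl F s2)) = F.S.hc (bl F s0) (bl F s1) :=
    hc_congr (ffst _ _) (ffst _ _) (fpr (frf _) (fn_bl_bl F h2)) (ffst _ _)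
  linarith

theorem a_one {s0 s1 : ℕ} (h1 : s0 ≤ s1) :
    F.S.h (bl F s0) = F.S.hc (bl F s0) (bl F s1) + F.S.h (bl F s1) := by
  have t0 := BG.tame_bl F s0
  have t1 := BG.tame_bl F s1
  have e1 := hc_pair t1 t0 (one (S := F.S))
  have e2 : F.S.hc (Sys.pr (bl F s1) (bl F s0)) (one (S := F.S)) = F.S.h (bl F s0) :=
    hc_congr (fpr (ftr (fn_bl_bl F h1) (ffst _ _)) (ffst _ _)) (ftr (fsnd _ _) (ffst _ _)) (frf _) (frf _)
  have e3 : F.S.hc (bl F s0) (Sys.pr (bl F s1) (one (S := F.S))) = F.S.hc (bl F s0) (bl F s1) :=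
    hc_congr (ffst _ _) (ffst _ _) (fpr (frf _) (fone _)) (ffst _ _)
  have e4 : F.S.hc (bl F s1) (one (S := F.S)) = F.S.h (bl F s1) := rfl
  linarith

/-- the projection is known from the ball of the same radius and the direction -/
theorem z_pj_bl (s : ℕ) {h : ℕ} (hh : h ≤ K) : F.S.hc (pj F s h) (Sys.pr (bl F s) (F.Y h)) = 0 := by
  refine Vale.Agent.P122.K931.zero_vec 3 _ _ ?_
  refine Eventually.of_forall fun i ω ω' hω hω' e k => ?_
  simp only [pr_apply, Prod.mk.injEq] at e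
  obtain ⟨e1, e2⟩ := e
  obtain ⟨h1, h2⟩ := bl_close e1
  have hs : |F.s i h (F.Y h i ω) k| ≤ 1 := slope_bd hh hω k
  unfold pj
  rw [e2]
  refine (floor_near' (C := 2) ?_).trans (by norm_num)
  rw [← sub_div, abs_div, abs_of_pos (by positivity : (0:ℝ) < 2 ^ (s * F.n i)), div_le_iff₀ (by positivity)]
  have e5 : ((F.N 0 i ω').o k : ℝ) - ((F.N 0 i ω').T : ℝ) * F.s i h (F.Y h i ω) k -
      (((F.N 0 i ω).o k : ℝ) - ((F.N 0 i ω).T : ℝ) * F.s i h (F.Y h i ω) k) =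
      (((F.N 0 i ω').o k : ℝ) - (F.N 0 i ω).o k) +
      -((((F.N 0 i ω').T : ℝ) - (F.N 0 i ω).T) * F.s i h (F.Y h i ω) k) := by ring
  rw [e5]
  refine (abs_add_le _ _).trans ?_
  have h3 : |-((((F.N 0 i ω').T : ℝ) - (F.N 0 i ω).T) * F.s i h (F.Y h i ω) k)| ≤ 2 ^ (s * F.n i) := by
    rw [abs_neg, abs_mul]
    calc _ ≤ 2 ^ (s * F.n i) * 1 := mul_le_mul h1 hs (abs_nonneg _) (by positivity)
      _ = _ := mul_one _
  have := h2 k
  push_cast
  linarith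

theorem z_bl_bl {s s' : ℕ} (h : s ≤ s') : F.S.hc (bl F s') (bl F s) = 0 := hc_fn (fn_bl_bl F h)

/-- entropy of the projection in a window -/
theorem pj_le {c1 : ℝ} (hX : TG0 F c1) {a b : ℕ} (hab : a ≤ b) (hb : b ≤ K) (h2 : b ≤ 2 * a) {e : ℝ}
    (hlw : |3 * ∑ c ∈ Ico a b, tc F c - F.S.hc (bl F (2 * a)) (bl F (2 * b))| ≤ e) :
    F.S.hc (pj F (2 * a) (2 * b - 2 * a)) (Sys.pr (bl F (2 * b)) (F.Y (2 * b - 2 * a))) ≤
      2 / 3 * F.S.hc (bl F (2 * a)) (bl F (2 * b)) + e / 3 := by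
  have hh : 2 * b - 2 * a ≤ K := by omega
  have tb := BG.tame_bl F (2 * a)
  have tp := NS.tame_pj F (2 * a) hh
  have tY := BG.tame_Y F hh
  have e1 := hX.I2 a b hab hb
  have e2 := hX.I2' b (2 * a) (2 * b) (by omega) (by omega) le_rfl (by omega) hb
  have e3 := hc_pair tp tb (Sys.pr (bl F (2 * b)) (F.Y (2 * b - 2 * a)))
  have e4 := hc_pair tb tp (Sys.pr (bl F (2 * b)) (F.Y (2 * b - 2 * a)))
  have e5 : F.S.hc (Sys.pr (pj F (2 * a) (2 * b - 2 * a)) (bl F (2 * a))) (Sys.pr (bl F (2 * b)) (F.Y (2 * b - 2 * a))) =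
      F.S.hc (Sys.pr (bl F (2 * a)) (pj F (2 * a) (2 * b - 2 * a))) (Sys.pr (bl F (2 * b)) (F.Y (2 * b - 2 * a))) :=
    hc_congr (fpr (ftr (fsnd _ _) (ffst _ _)) (ftr (ffst _ _) (ffst _ _)))
      (fpr (ftr (fsnd _ _) (ffst _ _)) (ftr (ffst _ _) (ffst _ _))) (frf _) (frf _)
  have e6 : F.S.hc (pj F (2 * a) (2 * b - 2 * a)) (Sys.pr (bl F (2 * a)) (Sys.pr (bl F (2 * b)) (F.Y (2 * b - 2 * a)))) ≤ 0 := by
    rw [← z_pj_bl (F := F) (2 * a) hh]
    exact hc_mono_right tp (fpr (ffst _ _) (ftr (fsnd _ _) (fsnd _ _)))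
  have e7 : F.S.hc (bl F (2 * a)) (Sys.pr (bl F (2 * b)) (F.Y (2 * b - 2 * a))) ≤ F.S.hc (bl F (2 * a)) (bl F (2 * b)) :=
    hc_mono_right tb (ffst _ _)
  have e8 : F.S.hc (bl F (2 * a)) (Sys.pr (bl F (2 * b)) (Sys.pr (F.Y (2 * b - 2 * a)) (pj F (2 * a) (2 * b - 2 * a)))) =
      F.S.hc (bl F (2 * a)) (Sys.pr (pj F (2 * a) (2 * b - 2 * a)) (Sys.pr (bl F (2 * b)) (F.Y (2 * b - 2 * a)))) :=
    hc_congr (ffst _ _) (ffst _ _)
      (fpr (ftr (ffst _ _) (fsnd _ _)) (fpr (ftr (fsnd _ _) (fsnd _ _)) (ffst _ _)))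
      (fpr (ftr (fsnd _ _) (fsnd _ _)) (fpr (ffst _ _) (ftr (ffst _ _) (fsnd _ _))))
  have h3 := (abs_le.1 hlw).1
  linarith

/-- growth of the directions of a coarser resolution in a smaller window -/
theorem gr_le {w' w s0 s1 s2 s3 : ℕ} (h : w' ≤ w) (hw : w ≤ K) (h0 : s0 ≤ s1) (h1 : s1 ≤ s2) (h2 : s2 ≤ s3) :
    F.S.hc (F.Y w') (bl F s2) - F.S.hc (F.Y w') (bl F s1) ≤ F.S.hc (F.Y w) (bl F s3) - F.S.hc (F.Y w) (bl F s0) := by
  have t := BG.tame_Y F hw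
  have t' := BG.tame_Y F (h.trans hw)
  have fY : Sys.Fn (F.Y w') (F.Y w) := Eventually.of_forall fun i ω ω' hω hω' e => by
    have e' : (F.N w i ω).τ = (F.N w i ω').τ := e
    show (F.N w' i ω).τ = (F.N w' i ω').τ
    funext k
    rw [Y_eq h hw hω k, Y_eq h hw hω' k, e']
  have key : ∀ s, F.S.hc (F.Y w) (bl F s) = F.S.hc (F.Y w') (bl F s) + F.S.hc (F.Y w) (Sys.pr (F.Y w') (bl F s)) := by
    intro s
    rw [← hc_pair t' t (bl F s)]
    exact hc_congr (ftr (fsnd _ _) (ffst _ _)) (fpr (ftr fY (ffst _ _)) (ffst _ _)) (frf _) (frf _)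
  have k1 := key s2
  have k2 := key s1
  have k3 : F.S.hc (F.Y w) (Sys.pr (F.Y w') (bl F s1)) ≤ F.S.hc (F.Y w) (Sys.pr (F.Y w') (bl F s2)) :=
    hc_mono_right t (fpr (ffst _ _) (ftr (fn_bl_bl F h1) (fsnd _ _)))
  have k4 : F.S.hc (F.Y w) (bl F s2) ≤ F.S.hc (F.Y w) (bl F s3) := hc_mono_right t (fn_bl_bl F h2)
  have k5 : F.S.hc (F.Y w) (bl F s0) ≤ F.S.hc (F.Y w) (bl F s1) := hc_mono_right t (fn_bl_bl F h0)
  linarith

theorem const_small (S : Sys) (A ε : ℝ) (hε : 0 < ε) : ∀ᶠ i in (uf : Filter ℕ), A ≤ (2 : ℝ) ^ (ε * S.L i) := by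
  filter_upwards [poly_small S |A| ε (abs_nonneg _) hε 1, S.L_pos] with i h1 h2
  have h3 : (1:ℝ) ≤ S.L i := by exact_mod_cast h2
  rw [pow_one] at h1
  have h4 := le_abs_self A
  have h5 := abs_nonneg A
  nlinarith

/-- the largest ball -/
theorem cnt_top : Cnt F.S (bl F (2 * K)) (one (S := F.S)) 0 := by
  classical
  intro ε hε
  set A : ℝ := F.C + 1 + (F.C + 2) * K with hA
  set M : ℤ := ⌈A⌉₊ + 1 with hM
  let U : Finset (ℤ × Z2) := ({0} : Finset ℤ) ×ˢ Fintype.piFinset fun _ : Fin 2 => Finset.Icc (-M) M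
  filter_upwards [const_small F.S U.card ε hε] with i hi ω _
  refine ⟨U, by rw [zero_add]; exact hi, fun ω' hω' _ => ?_⟩
  rw [Finset.mem_product]
  constructor
  · rw [Finset.mem_singleton]
    have h1 := (F.root i ω' hω').2
    exact Int.ediv_eq_zero_of_lt h1.1 h1.2
  · rw [Fintype.mem_piFinset]
    intro k
    rw [Finset.mem_Icc, ← abs_le]
    have h1 := Vale.Agent.P122.K931.o_bd F hω' (Nat.zero_le K) k
    have h2 := Vale.Agent.P122.K931.ediv_close (a := (F.N 0 i ω').o k) (b := 0) (N := 2 ^ (2 * K * F.n i)) (C := ⌈A⌉₊)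
      (by positivity) (by
        push_cast
        rw [sub_zero]
        exact h1.trans (mul_le_mul_of_nonneg_right (Nat.le_ceil A) (by positivity)))
    rw [Int.zero_ediv, sub_zero] at h2
    push_cast at h2
    exact h2

theorem cnt_one {κ : ℝ} {s : ℕ} (hs : s ≤ 2 * K)
    (h : Cnt F.S (bl F s) (bl F (2 * K)) (F.S.hc (bl F s) (bl F (2 * K)) + κ)) :
    Cnt F.S (bl F s) (one (S := F.S)) (F.S.h (bl F s) + κ) := by
  classical
  have e := a_one (F := F) hs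
  have h0 : 0 ≤ F.S.h (bl F (2 * K)) := hc_nonneg (BG.tame_bl F _) _
  intro ε hε
  filter_upwards [h (ε / 2) (by positivity), cnt_top (F := F) (ε / 2) (by positivity)] with i h1 h2 ω hω
  obtain ⟨U, hU, hU'⟩ := h2 ω hω
  have hch : ∀ u : ℤ × Z2, ∃ V : Finset (ℤ × Z2), (V.card : ℝ) ≤ (2 : ℝ) ^ ((F.S.hc (bl F s) (bl F (2 * K)) + κ + ε / 2) * F.S.L i) ∧
      ∀ ω', 0 < (F.S.P i).w ω' → bl F (2 * K) i ω' = u → bl F s i ω' ∈ V := by
    intro u
    by_cases hu : ∃ ω', 0 < (F.S.P i).w ω' ∧ bl F (2 * K) i ω' = u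
    · obtain ⟨ω', h3, h4⟩ := hu
      obtain ⟨V, hV, hV'⟩ := h1 ω' h3
      exact ⟨V, hV, fun ω'' h5 h6 => hV' ω'' h5 (h6.trans h4.symm)⟩
    · push Not at hu
      exact ⟨∅, by simp only [Finset.card_empty, Nat.cast_zero]; positivity, fun ω'' h5 h6 => absurd h6 (hu ω'' h5)⟩
  choose V hV hV' using hch
  refine ⟨U.biUnion V, ?_, fun ω' hω' _ => Finset.mem_biUnion.2 ⟨_, hU' ω' hω' rfl, hV' _ ω' hω' rfl⟩⟩
  have h3 : ((U.biUnion V).card : ℝ) ≤ ∑ u ∈ U, ((V u).card : ℝ) := by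
    exact_mod_cast Finset.card_biUnion_le
  refine h3.trans ((Finset.sum_le_sum fun u _ => hV u).trans ?_)
  rw [Finset.sum_const, nsmul_eq_mul]
  refine (mul_le_mul_of_nonneg_right hU (by positivity)).trans ?_
  rw [← Real.rpow_add (by norm_num)]
  refine Real.rpow_le_rpow_of_exponent_le (by norm_num) ?_
  have hL : (0:ℝ) ≤ F.S.L i := Nat.cast_nonneg _
  nlinarith

/-- **the flat facts** in a good window -/
theorem wa_of {c1 κ η h ρ E : ℝ} {s W N w S : ℕ} (hX : TGX F c1 κ) (hW : Win F η h ρ s W) (hK : 1 ≤ K)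
    (hw : 1 ≤ w) (hN : 1 ≤ N) (ew : Even w) (eS : Even S) (hS : s - W ≤ S) (hSs : S + N * w ≤ s)
    (hη : η * W / K ≤ E / 10 * (N * w / K)) (hκ : κ ≤ E / 10 * (N * w / K)) (hη0 : 0 ≤ η) :
    WA F c1 E ρ (F.S.hc (F.Y (N * w)) (bl F S) / (N * w / K)) N w S := by
  obtain ⟨u, hu⟩ := ew
  obtain ⟨v, hv⟩ := eS
  have hws := hW.ws
  have hsK := hW.sK
  have hNw : N * w ≤ W := by omega
  have hNK : N * w ≤ K := by omega
  have hKr : (0:ℝ) < K := by exact_mod_cast hK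
  have hkw : ∀ l, l ≤ N → l * w ≤ N * w := fun l hl => Nat.mul_le_mul_right _ hl
  set err : ℝ := η * W / K with herr
  have herr0 : 0 ≤ err := by positivity
  set a : ℕ → ℕ → ℝ := fun s s' => F.S.hc (bl F s) (bl F s') with ha
  -- linearity between two grid radii
  have hlin : ∀ k l, k ≤ l → l ≤ N →
      |a (S + k * w) (S + l * w) - 3 * ρ * ((l : ℝ) - k) * (w / K)| ≤ 2 * err := by
    intro k l hkl hl
    have h1 := hkw l hl
    have h1' : k * w ≤ l * w := Nat.mul_le_mul_right _ hkl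
    have h2 := hW.lin (S + k * w) (by omega) (by omega)
    have h3 := hW.lin (S + l * w) (by omega) (by omega)
    have h4 := a_add (F := F) (s0 := s - W) (s1 := S + k * w) (s2 := S + l * w) (by omega) (by omega)
    have e1 : 3 * ρ * (((S + l * w : ℕ) : ℝ) - (s - W : ℕ)) / K - 3 * ρ * (((S + k * w : ℕ) : ℝ) - (s - W : ℕ)) / K =
        3 * ρ * ((l : ℝ) - k) * (w / K) := by
      push_cast
      ring
    have h5 := abs_le.1 h2
    have h6 := abs_le.1 h3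
    rw [abs_le]
    simp only [ha]
    constructor <;> linarith [h5.1, h5.2, h6.1, h6.2]
  have hΛ : 0 ≤ (w : ℝ) / K := by positivity
  have hNΛ : (0:ℝ) < N * w / K := by
    have : (1:ℝ) ≤ N := by exact_mod_cast hN
    have : (1:ℝ) ≤ w := by exact_mod_cast hw
    positivity
  have hd : F.S.hc (F.Y (N * w)) (bl F S) / (N * w / K) * N * (w / K) = F.S.hc (F.Y (N * w)) (bl F S) := by
    have e : F.S.hc (F.Y (N * w)) (bl F S) / (N * w / K) * N * (w / K) =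
      F.S.hc (F.Y (N * w)) (bl F S) / (N * w / K) * (N * w / K) := by ring
    rw [e, div_mul_cancel₀ _ hNΛ.ne']
  have hEN : E * N * (w / K) = E * (N * w / K) := by ring
  refine ⟨hw, hN, hNK, by omega, ?_, ?_, ?_, ?_, ?_, ?_, ?_, ?_, hX.spr⟩
  · intro k l hkl hl
    have h1 := hkw l hl
    have h1' : k * w ≤ l * w := Nat.mul_le_mul_right _ hkl
    refine cnt_mono (hX.cb (S + k * w) (S + l * w) (by omega) (by omega)) ?_
    have h2 := (abs_le.1 (hlin k l hkl hl)).2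
    simp only [ha] at h2
    rw [add_mul, hEN]
    linarith
  · intro k l hkl hl
    have h1 := hkw l hl
    have h1' : k * w ≤ l * w := Nat.mul_le_mul_right _ hkl
    have hsub : (l - k) * w = l * w - k * w := Nat.sub_mul _ _ _
    have h3 := hX.cp (S + k * w) ((l - k) * w) (by omega) (by omega) (by omega)
    have e1 : S + k * w + (l - k) * w = S + l * w := by omega
    rw [e1] at h3
    refine cnt_mono h3 ?_
    obtain ⟨α, hα⟩ : ∃ α, S + k * w = 2 * α := ⟨v + k * u, by rw [hu, hv]; ring⟩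
    obtain ⟨β, hβ⟩ : ∃ β, S + l * w = 2 * β := ⟨v + l * u, by rw [hu, hv]; ring⟩
    have h4 := pj_le (F := F) hX.toTG0 (a := α) (b := β) (by omega) (by omega) (by omega)
      (hW.lw α β (by omega) (by omega) (by omega))
    have e2 : (l - k) * w = 2 * β - 2 * α := by omega
    rw [hα, hβ, e2]
    have h5 := (abs_le.1 (hlin k l hkl hl)).2
    simp only [ha] at h5
    rw [hα, hβ] at h5
    rw [add_mul, hEN]
    linarith
  · refine cnt_mono (hX.cd (N * w) (S + N * w) hNK (by omega)) ?_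
    have h1 := gr_le (F := F) (w' := N * w) (w := W) (s0 := s - W) (s1 := S) (s2 := S + N * w) (s3 := s) hNw (by omega)
      hS (by omega) hSs
    have h2 := hW.stb
    rw [add_mul, add_mul, hd, hEN]
    linarith
  · refine unf_mono (hX.ub S (by omega)) ?_
    have h1 := a_one (F := F) (s0 := S) (s1 := S + N * w) (by omega)
    have h2 := (abs_le.1 (hlin 0 N (Nat.zero_le _) le_rfl)).1
    simp only [ha, zero_mul, add_zero, Nat.cast_zero, sub_zero] at h2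
    have e3 : (3 * ρ - E) * N * (w / K) = 3 * ρ * N * (w / K) - E * (N * w / K) := by ring
    rw [e3]
    linarith
  · refine unf_mono (hX.ud (N * w) S hNK (by omega)) ?_
    have tb := BG.tame_bl F S
    have tY := BG.tame_Y F hNK
    have h1 := hc_pair tb tY (one (S := F.S))
    have e2 : F.S.hc (F.Y (N * w)) (Sys.pr (bl F S) (one (S := F.S))) = F.S.hc (F.Y (N * w)) (bl F S) :=
      hc_congr (ffst _ _) (ffst _ _) (fpr (frf _) (fone _)) (ffst _ _)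
    have e3 : F.S.h (Sys.pr (bl F S) (F.Y (N * w))) = F.S.hc (Sys.pr (bl F S) (F.Y (N * w))) (one (S := F.S)) := rfl
    have e4 : F.S.h (bl F S) = F.S.hc (bl F S) (one (S := F.S)) := rfl
    rw [sub_mul, sub_mul, hd, hEN]
    linarith
  · intro j hj
    have h0 := hkw j hj
    refine unf_mono (hX.ud (j * w) S (by omega) (by omega)) ?_
    have tb := BG.tame_bl F S
    have tY := BG.tame_Y F (h0.trans hNK)
    have h1 := hc_pair tb tY (one (S := F.S))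
    have e2 : F.S.hc (F.Y (j * w)) (Sys.pr (bl F S) (one (S := F.S))) = F.S.hc (F.Y (j * w)) (bl F S) :=
      hc_congr (ffst _ _) (ffst _ _) (fpr (frf _) (fone _)) (ffst _ _)
    have e3 : F.S.h (Sys.pr (bl F S) (F.Y (j * w))) = F.S.hc (Sys.pr (bl F S) (F.Y (j * w))) (one (S := F.S)) := rfl
    have e4 : F.S.h (bl F S) = F.S.hc (bl F S) (one (S := F.S)) := rfl
    have h2 : F.S.hc (F.Y (j * w)) F.x ≤ F.S.hc (F.Y (j * w)) (bl F S) := hc_mono_right tY (fn_bl_x F S)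
    have h3 := hW.dir (j * w) (h0.trans hNK)
    have e5 : 2 / 3 * ((j * w : ℕ) : ℝ) / K = 2 / 3 * j * (w / K) := by push_cast; ring
    rw [e5] at h3
    rw [sub_mul, hEN]
    linarith
  · refine cnt_mono (cnt_one (F := F) (by omega) (hX.cb (S + N * w) (2 * K) (by omega) le_rfl)) ?_
    rw [hEN]
    linarith
  · refine cnt_mono (cnt_one (F := F) (by omega) (hX.cb S (2 * K) (by omega) le_rfl)) ?_
    rw [hEN]
    linarith

end

end Vale.Agent.P076.H803
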