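import Vale.Agent.P076.H803.WinA

/-!
# P076 / H803 : the flat facts at one index (helper803)
-/

set_option autoImplicit false

namespace Vale.Agent.P076.H803

open Filter Topology Finset Vale.Agent.P127 Vale.Agent.P127.Stk Vale.Agent.P127.U Vale.Agent.P127.U.Sys
  Vale.Agent.P122.C2 Vale.Agent.P122.E Vale.Agent.P122.H518 Vale.Agent.P076.NS Vale.Agent.P076.BG

variable {K : ℕ}

/-- the flat facts at the index `i`; `m = w n` bits per grid level, `t` = bound of the mass of strips -/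
structure FF (F : Flg K) (i : ℕ) (ρ E d t H0 HN : ℝ) (N w S m : ℕ) : Prop where
  f1 : ∀ k l : ℕ, k ≤ l → l ≤ N → ∀ ω, 0 < (F.S.P i).w ω → ∃ U : Finset (ℤ × Z2),
    (U.card : ℝ) ≤ (2:ℝ) ^ ((3 * ρ * ((l : ℝ) - k) + E * N) * m) ∧
      ∀ ω', 0 < (F.S.P i).w ω' → bl F (S + l * w) i ω' = bl F (S + l * w) i ω → bl F (S + k * w) i ω' ∈ U
  f2 : ∀ k l : ℕ, k ≤ l → l ≤ N → ∀ ω, 0 < (F.S.P i).w ω → ∃ U : Finset Z2,
    (U.card : ℝ) ≤ (2:ℝ) ^ ((2 * ρ * ((l : ℝ) - k) + E * N) * m) ∧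
      ∀ ω', 0 < (F.S.P i).w ω' → bl F (S + l * w) i ω' = bl F (S + l * w) i ω →
        F.Y ((l - k) * w) i ω' = F.Y ((l - k) * w) i ω → pj F (S + k * w) ((l - k) * w) i ω' ∈ U
  f3 : ∀ ω, 0 < (F.S.P i).w ω → ∃ U : Finset Z2, (U.card : ℝ) ≤ (2:ℝ) ^ ((d + E) * N * m) ∧
      ∀ ω', 0 < (F.S.P i).w ω' → bl F (S + N * w) i ω' = bl F (S + N * w) i ω → F.Y (N * w) i ω' ∈ U
  f4 : ∀ ω, (F.S.P i).pr (bl F S i) (bl F S i ω) ≤ HN⁻¹ * (2:ℝ) ^ (-(3 * ρ - E) * N * m)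
  f5 : ∀ ω, (F.S.P i).pr (Sys.pr (bl F S) (F.Y (N * w)) i) (Sys.pr (bl F S) (F.Y (N * w)) i ω) ≤
    H0⁻¹ * (2:ℝ) ^ (-(d - E) * N * m)
  f6 : ∀ j : ℕ, j ≤ N → ∀ ω, (F.S.P i).pr (Sys.pr (bl F S) (F.Y (j * w)) i) (Sys.pr (bl F S) (F.Y (j * w)) i ω) ≤
    H0⁻¹ * (2:ℝ) ^ (-(2 / 3 * j - E * N) * m)
  f7 : ∃ U : Finset (ℤ × Z2), (U.card : ℝ) ≤ HN * (2:ℝ) ^ (E * N * m) ∧
      ∀ ω', 0 < (F.S.P i).w ω' → bl F (S + N * w) i ω' ∈ U
  f8 : ∃ U : Finset (ℤ × Z2), (U.card : ℝ) ≤ H0 * (2:ℝ) ^ (E * N * m) ∧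
      ∀ ω', 0 < (F.S.P i).w ω' → bl F S i ω' ∈ U
  spr : ∀ ω0, 0 < (F.S.P i).w ω0 → ∀ θ r : ℝ,
    (F.S.P i).ex (fun ω => if F.x i ω = F.x i ω0 ∧ |fn θ (F.s i 1 (F.Y 1 i ω)) - r| ≤ F.C / 2 ^ F.n i then 1 else 0) ≤
      t * (F.S.P i).pr (F.x i) (F.x i ω0)

theorem ff_ev {F : Flg K} {c1 E ρ d t : ℝ} {N w S : ℕ} (h : WA F c1 E ρ d N w S) (hE : 0 < E) (hc : 0 < c1) (ht : 0 < t)
    (hK : 1 ≤ K) :
    ∀ᶠ i in (uf : Filter ℕ), FF F i ρ (2 * E) d t ((2:ℝ) ^ (F.S.h (bl F S) * F.S.L i))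
      ((2:ℝ) ^ (F.S.h (bl F (S + N * w)) * F.S.L i)) N w S (w * F.n i) := by
  classical
  have hKr : (0:ℝ) < K := by exact_mod_cast hK
  have hNr : (1:ℝ) ≤ N := by exact_mod_cast h.N1
  have hwr : (1:ℝ) ≤ w := by exact_mod_cast h.w1
  set ε : ℝ := E * N * (w / K) with hε
  have hε0 : 0 < ε := by positivity
  have hL : ∀ i, ((w : ℝ) / K) * F.S.L i = ((w * F.n i : ℕ) : ℝ) := fun i => by
    rw [F.L_eq i]
    push_cast
    field_simp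
  have hεL : ∀ i, ε * F.S.L i = E * N * ((w * F.n i : ℕ) : ℝ) := fun i => by
    rw [hε, mul_assoc, hL]
  have g1 : ∀ᶠ i in (uf : Filter ℕ), ∀ k l : ℕ, k ≤ l → l ≤ N → ∀ ω, 0 < (F.S.P i).w ω → ∃ U : Finset (ℤ × Z2),
      (U.card : ℝ) ≤ (2:ℝ) ^ ((3 * ρ * ((l : ℝ) - k) + 2 * E * N) * ((w * F.n i : ℕ) : ℝ)) ∧
      ∀ ω', 0 < (F.S.P i).w ω' → bl F (S + l * w) i ω' = bl F (S + l * w) i ω → bl F (S + k * w) i ω' ∈ U := by
    have : ∀ k ∈ range (N + 1), ∀ l ∈ range (N + 1), ∀ᶠ i in (uf : Filter ℕ), k ≤ l → ∀ ω, 0 < (F.S.P i).w ω →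
        ∃ U : Finset (ℤ × Z2),
        (U.card : ℝ) ≤ (2:ℝ) ^ ((3 * ρ * ((l : ℝ) - k) + 2 * E * N) * ((w * F.n i : ℕ) : ℝ)) ∧
        ∀ ω', 0 < (F.S.P i).w ω' → bl F (S + l * w) i ω' = bl F (S + l * w) i ω → bl F (S + k * w) i ω' ∈ U := by
      intro k _ l hl
      by_cases hkl : k ≤ l
      · filter_upwards [h.a1 k l hkl (by rw [mem_range] at hl; omega) ε hε0] with i hi _ ω hω
        obtain ⟨U, hU, hU'⟩ := hi ω hω
        refine ⟨U, hU.trans (le_of_eq ?_), hU'⟩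
        congr 1
        rw [add_mul, mul_assoc, hL, hεL]
        ring
      · exact Eventually.of_forall fun i h' => absurd h' hkl
    have h2 := (eventually_all_finset (range (N + 1))).2 fun k hk => (eventually_all_finset (range (N + 1))).2 (this k hk)
    filter_upwards [h2] with i hi k l hkl hl
    exact hi k (by rw [mem_range]; omega) l (by rw [mem_range]; omega) hkl
  have g2 : ∀ᶠ i in (uf : Filter ℕ), ∀ k l : ℕ, k ≤ l → l ≤ N → ∀ ω, 0 < (F.S.P i).w ω → ∃ U : Finset Z2,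
      (U.card : ℝ) ≤ (2:ℝ) ^ ((2 * ρ * ((l : ℝ) - k) + 2 * E * N) * ((w * F.n i : ℕ) : ℝ)) ∧
      ∀ ω', 0 < (F.S.P i).w ω' → bl F (S + l * w) i ω' = bl F (S + l * w) i ω →
        F.Y ((l - k) * w) i ω' = F.Y ((l - k) * w) i ω → pj F (S + k * w) ((l - k) * w) i ω' ∈ U := by
    have : ∀ k ∈ range (N + 1), ∀ l ∈ range (N + 1), ∀ᶠ i in (uf : Filter ℕ), k ≤ l → ∀ ω, 0 < (F.S.P i).w ω →
        ∃ U : Finset Z2,
        (U.card : ℝ) ≤ (2:ℝ) ^ ((2 * ρ * ((l : ℝ) - k) + 2 * E * N) * ((w * F.n i : ℕ) : ℝ)) ∧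
        ∀ ω', 0 < (F.S.P i).w ω' → bl F (S + l * w) i ω' = bl F (S + l * w) i ω →
          F.Y ((l - k) * w) i ω' = F.Y ((l - k) * w) i ω → pj F (S + k * w) ((l - k) * w) i ω' ∈ U := by
      intro k _ l hl
      by_cases hkl : k ≤ l
      · filter_upwards [h.a2 k l hkl (by rw [mem_range] at hl; omega) ε hε0] with i hi _ ω hω
        obtain ⟨U, hU, hU'⟩ := hi ω hω
        refine ⟨U, hU.trans (le_of_eq ?_), fun ω' hω' e1 e2 => hU' ω' hω' (Prod.ext e1 e2)⟩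
        congr 1
        rw [add_mul, mul_assoc, hL, hεL]
        ring
      · exact Eventually.of_forall fun i h' => absurd h' hkl
    have h2 := (eventually_all_finset (range (N + 1))).2 fun k hk => (eventually_all_finset (range (N + 1))).2 (this k hk)
    filter_upwards [h2] with i hi k l hkl hl
    exact hi k (by rw [mem_range]; omega) l (by rw [mem_range]; omega) hkl
  have g6 : ∀ᶠ i in (uf : Filter ℕ), ∀ j : ℕ, j ≤ N → ∀ ω,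
      (F.S.P i).pr (Sys.pr (bl F S) (F.Y (j * w)) i) (Sys.pr (bl F S) (F.Y (j * w)) i ω) ≤
      ((2:ℝ) ^ (F.S.h (bl F S) * F.S.L i))⁻¹ * (2:ℝ) ^ (-(2 / 3 * (j:ℝ) - 2 * E * N) * ((w * F.n i : ℕ) : ℝ)) := by
    have : ∀ j ∈ range (N + 1), ∀ᶠ i in (uf : Filter ℕ), ∀ ω,
        (F.S.P i).pr (Sys.pr (bl F S) (F.Y (j * w)) i) (Sys.pr (bl F S) (F.Y (j * w)) i ω) ≤
        ((2:ℝ) ^ (F.S.h (bl F S) * F.S.L i))⁻¹ * (2:ℝ) ^ (-(2 / 3 * (j:ℝ) - 2 * E * N) * ((w * F.n i : ℕ) : ℝ)) := by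
      intro j hj
      filter_upwards [h.a6 j (by rw [mem_range] at hj; omega) ε hε0] with i hi ω
      refine (hi ω).trans (le_of_eq ?_)
      rw [← Real.rpow_neg (by norm_num), ← Real.rpow_add (by norm_num)]
      congr 1
      rw [← hL, hε]
      ring
    have h2 := (eventually_all_finset (range (N + 1))).2 this
    filter_upwards [h2] with i hi j hj
    exact hi j (by rw [mem_range]; omega)
  -- decay of the mass of strips
  have gs : ∀ᶠ i in (uf : Filter ℕ), (2:ℝ) ^ ((c1 / K / 2 - c1 / K) * F.S.L i) ≤ t := by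
    have hc1 : 0 < c1 / K / 2 := by positivity
    filter_upwards [const_small F.S (1 / t) (c1 / K / 2) hc1] with i hi
    have e : (2:ℝ) ^ ((c1 / K / 2 - c1 / K) * F.S.L i) = ((2:ℝ) ^ (c1 / K / 2 * F.S.L i))⁻¹ := by
      rw [← Real.rpow_neg (by norm_num)]
      congr 1
      ring
    rw [e]
    rw [div_le_iff₀ ht] at hi
    rw [inv_le_iff_one_le_mul₀ (by positivity)]
    linarith
  filter_upwards [g1, g2, h.a3 ε hε0, h.a4 ε hε0, h.a5 ε hε0, g6, h.a7 ε hε0, h.a8 ε hε0, gs,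
    h.spr (c1 / K / 2) (by positivity)] with i h1 h2 h3 h4 h5 h6 h7 h8 h9 h10
  refine ⟨h1, h2, ?_, ?_, ?_, h6, ?_, ?_, ?_⟩
  · intro ω hω
    obtain ⟨U, hU, hU'⟩ := h3 ω hω
    refine ⟨U, hU.trans (le_of_eq ?_), hU'⟩
    congr 1
    rw [← hL, hε]
    ring
  · intro ω
    refine (h4 ω).trans (le_of_eq ?_)
    rw [← Real.rpow_neg (by norm_num), ← Real.rpow_add (by norm_num)]
    congr 1
    rw [← hL, hε]
    ring
  · intro ω
    refine (h5 ω).trans (le_of_eq ?_)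
    rw [← Real.rpow_neg (by norm_num), ← Real.rpow_add (by norm_num)]
    congr 1
    rw [← hL, hε]
    ring
  · obtain ⟨ω, hω⟩ := law_pos (F.S.P i)
    obtain ⟨U, hU, hU'⟩ := h7 ω hω
    refine ⟨U, hU.trans (le_of_eq ?_), fun ω' hω' => hU' ω' hω' rfl⟩
    rw [← Real.rpow_add (by norm_num)]
    congr 1
    rw [← hL, hε]
    ring
  · obtain ⟨ω, hω⟩ := law_pos (F.S.P i)
    obtain ⟨U, hU, hU'⟩ := h8 ω hω
    refine ⟨U, hU.trans (le_of_eq ?_), fun ω' hω' => hU' ω' hω' rfl⟩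
    rw [← Real.rpow_add (by norm_num)]
    congr 1
    rw [← hL, hε]
    ring
  · intro ω0 hω0 θ r
    refine (h10 ω0 hω0 θ r).trans ?_
    exact mul_le_mul_of_nonneg_right h9 ((F.S.P i).pr_nonneg _ _)

end Vale.Agent.P076.H803
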