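import Vale.Agent.P076.H803.WinB
import Vale.Agent.P076.H732.FinDefs

/-!
# P076 / H803 : from the flat facts at one index to the finite configuration, part 1 (helper803)
-/

set_option autoImplicit false

namespace Vale.Agent.P076.H803

open Filter Topology Finset Vale.Agent.P127 Vale.Agent.P127.Stk Vale.Agent.P127.U Vale.Agent.P127.U.Sys
  Vale.Agent.P122.C2 Vale.Agent.P122.E Vale.Agent.P122.H518 Vale.Agent.P076.NS Vale.Agent.P076.BG
  Vale.Agent.P076.H732

/-! ### finite laws -/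

section fin

variable {Ω : Type} [Fintype Ω] (P : Law Ω)

theorem prE_eq_sum_pr {α : Type*} (X : Ω → α) (G : Finset α) :
    ∑ x ∈ G, P.pr X x = prE P (fun ω => X ω ∈ G) := by
  classical
  unfold prE Law.pr
  rw [← Finset.sum_biUnion]
  · refine Finset.sum_congr ?_ fun _ _ => rfl
    ext ω
    simp only [mem_biUnion, mem_filter, mem_univ, true_and]
    constructor
    · rintro ⟨x, hx, e⟩
      rw [e]
      exact hx
    · intro h
      exact ⟨_, h, rfl⟩
  · intro x _ x' _ hne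
    rw [Function.onFun, Finset.disjoint_left]
    intro ω h1 h2
    simp only [mem_filter, mem_univ, true_and] at h1 h2
    exact hne (h1.symm.trans h2)

theorem prE_mono {E E' : Ω → Prop} (h : ∀ ω, 0 < P.w ω → E ω → E' ω) : prE P E ≤ prE P E' := by
  classical
  unfold prE
  rw [Finset.sum_filter, Finset.sum_filter]
  refine Finset.sum_le_sum fun ω _ => ?_
  rcases (P.nn ω).eq_or_lt with h0 | h0
  · rw [← h0]; simp
  · by_cases hE : E ω
    · rw [if_pos hE, if_pos (h ω h0 hE)]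
    · rw [if_neg hE]
      split_ifs
      · exact h0.le
      · exact le_rfl

theorem prE_or (E E' : Ω → Prop) : prE P (fun ω => E ω ∨ E' ω) ≤ prE P E + prE P E' := by
  classical
  unfold prE
  rw [Finset.sum_filter, Finset.sum_filter, Finset.sum_filter, ← Finset.sum_add_distrib]
  refine Finset.sum_le_sum fun ω _ => ?_
  have := P.nn ω
  by_cases h1 : E ω <;> by_cases h2 : E' ω <;> simp [h1, h2, this]

/-- the low values have small mass -/
theorem low_mass {α : Type*} (X : Ω → α) (U : Finset α) (hU : ∀ ω, 0 < P.w ω → X ω ∈ U) (θ : ℝ) (hθ : 0 ≤ θ) :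
    prE P (fun ω => P.pr X (X ω) < θ) ≤ U.card * θ := by
  classical
  have h1 : prE P (fun ω => P.pr X (X ω) < θ) ≤ prE P (fun ω => X ω ∈ U.filter fun x => P.pr X x < θ) :=
    prE_mono P fun ω hω h => Finset.mem_filter.2 ⟨hU ω hω, h⟩
  refine h1.trans ?_
  rw [← prE_eq_sum_pr, ← nsmul_eq_mul]
  refine (Finset.sum_le_card_nsmul _ _ θ fun x hx => (Finset.mem_filter.1 hx).2.le).trans ?_
  exact nsmul_le_nsmul_left hθ (Finset.card_filter_le _ _)

/-- values with a large proportion of a small event have small mass -/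
theorem bad_mass {α : Type*} (X : Ω → α) (E : Ω → Prop) :
    prE P (fun ω => P.pr X (X ω) < 4 * prE P (fun ω' => X ω' = X ω ∧ E ω')) ≤ 4 * prE P E := by
  classical
  set q : α → ℝ := fun x => prE P (fun ω' => X ω' = x ∧ E ω') with hq
  have h1 : prE P (fun ω => P.pr X (X ω) < 4 * q (X ω)) =
      ∑ x ∈ (img X).filter (fun x => P.pr X x < 4 * q x), P.pr X x := by
    rw [prE_eq_sum_pr]
    unfold prE
    refine Finset.sum_congr ?_ fun _ _ => rfl
    ext ω
    simp only [mem_filter, mem_univ, true_and]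
    exact ⟨fun h => ⟨mem_img.2 ⟨ω, rfl⟩, h⟩, fun h => h.2⟩
  rw [h1]
  have h2 : ∑ x ∈ (img X).filter (fun x => P.pr X x < 4 * q x), P.pr X x ≤ ∑ x ∈ img X, 4 * q x := by
    refine (Finset.sum_le_sum fun x hx => (Finset.mem_filter.1 hx).2.le).trans ?_
    exact Finset.sum_le_sum_of_subset_of_nonneg (Finset.filter_subset _ _)
      fun x _ _ => mul_nonneg (by norm_num) (prE_nonneg _ _)
  refine h2.trans ?_
  rw [← Finset.mul_sum]
  refine mul_le_mul_of_nonneg_left (le_of_eq ?_) (by norm_num)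
  simp only [hq]
  unfold prE
  rw [← Finset.sum_biUnion]
  · refine Finset.sum_congr ?_ fun _ _ => rfl
    ext ω
    simp only [mem_biUnion, mem_filter, mem_univ, true_and]
    constructor
    · rintro ⟨x, _, _, h⟩
      exact h
    · intro h
      exact ⟨X ω, mem_img.2 ⟨ω, rfl⟩, rfl, h⟩
  · intro x _ x' _ hne
    rw [Function.onFun, Finset.disjoint_left]
    intro ω h1 h2
    simp only [mem_filter, mem_univ, true_and] at h1 h2
    exact hne (h1.1.symm.trans h2.1)

/-- a typical value of `X`, for which the low values of `Y` are rare -/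
theorem exists_typ {α β : Type*} (X : Ω → α) (Y : Ω → β) (U : Finset α) (V : Finset β) (M M' : ℝ)
    (hU : ∀ ω, 0 < P.w ω → X ω ∈ U) (hV : ∀ ω, 0 < P.w ω → Y ω ∈ V) (hM : (U.card : ℝ) ≤ M) (hM' : (V.card : ℝ) ≤ M')
    (h0 : 0 < M) (h0' : 0 < M') :
    ∃ ω, 0 < P.w ω ∧ 1 / (8 * M) ≤ P.pr X (X ω) ∧
      4 * prE P (fun ω' => X ω' = X ω ∧ P.pr Y (Y ω') < 1 / (32 * M')) ≤ P.pr X (X ω) := by
  classical
  by_contra hcon
  push Not at hcon
  have h1 := low_mass P X U hU (1 / (8 * M)) (by positivity)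
  have h2 := low_mass P Y V hV (1 / (32 * M')) (by positivity)
  have h3 := bad_mass P X (fun ω' => P.pr Y (Y ω') < 1 / (32 * M'))
  have h4 : prE P (fun _ => True) ≤ prE P (fun ω => P.pr X (X ω) < 1 / (8 * M) ∨
      P.pr X (X ω) < 4 * prE P (fun ω' => X ω' = X ω ∧ P.pr Y (Y ω') < 1 / (32 * M'))) := by
    refine prE_mono P fun ω hω _ => ?_
    by_cases h : P.pr X (X ω) < 1 / (8 * M)
    · exact Or.inl h
    · exact Or.inr (hcon ω hω (not_lt.1 h))
  have h5 : prE P (fun _ => True) = 1 := by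
    unfold prE
    rw [← P.sum_one]
    refine Finset.sum_congr ?_ fun _ _ => rfl
    ext ω
    simp
  have h6 := prE_or P (fun ω => P.pr X (X ω) < 1 / (8 * M))
    (fun ω => P.pr X (X ω) < 4 * prE P (fun ω' => X ω' = X ω ∧ P.pr Y (Y ω') < 1 / (32 * M')))
  have h7 : (U.card : ℝ) * (1 / (8 * M)) ≤ 1 / 8 := by
    rw [mul_one_div, div_le_iff₀ (by positivity)]
    linarith
  have h8 : (V.card : ℝ) * (1 / (32 * M')) ≤ 1 / 32 := by
    rw [mul_one_div, div_le_iff₀ (by positivity)]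
    linarith
  linarith

theorem sum_pr_pair {α β : Type*} (X : Ω → α) (Y : Ω → β) (x : α) (T : Finset β)
    (h : ∀ ω, 0 < P.w ω → X ω = x → Y ω ∈ T) : ∑ θ ∈ T, P.pr (fun ω => (X ω, Y ω)) (x, θ) = P.pr X x := by
  classical
  have h1 : ∀ θ ∈ T, P.pr (fun ω => (X ω, Y ω)) (x, θ) = ∑ ω ∈ univ.filter (fun ω => X ω = x ∧ Y ω = θ), P.w ω := by
    intro θ _
    unfold Law.pr
    refine Finset.sum_congr ?_ fun _ _ => rfl
    ext ω
    simp [Prod.ext_iff]
  rw [Finset.sum_congr rfl h1, ← Finset.sum_biUnion]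
  · have h2 : P.pr X x = ∑ ω ∈ univ.filter (fun ω => X ω = x), P.w ω := by
      unfold Law.pr
      refine Finset.sum_congr ?_ fun _ _ => rfl
      ext ω
      simp
    rw [h2]
    refine Finset.sum_subset ?_ ?_
    · intro ω hω
      simp only [mem_biUnion, mem_filter, mem_univ, true_and] at hω ⊢
      obtain ⟨θ, _, h3, _⟩ := hω
      exact h3
    · intro ω hω hn
      simp only [mem_biUnion, mem_filter, mem_univ, true_and] at hω hn
      by_contra hne
      exact hn ⟨Y ω, h ω (lt_of_le_of_ne (P.nn ω) (Ne.symm hne)) hω, hω, rfl⟩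
  · intro θ _ θ' _ hne
    rw [Function.onFun, Finset.disjoint_left]
    intro ω h1 h2
    simp only [mem_filter, mem_univ, true_and] at h1 h2
    exact hne (h1.2.symm.trans h2.2)

/-- joint mass over a set of values -/
theorem sum_pr_pair_le {α β : Type*} (X : Ω → α) (Y : Ω → β) (x : α) (T : Finset β) :
    ∑ θ ∈ T, P.pr (fun ω => (X ω, Y ω)) (x, θ) = prE P (fun ω => X ω = x ∧ Y ω ∈ T) := by
  classical
  have h1 : ∀ θ ∈ T, P.pr (fun ω => (X ω, Y ω)) (x, θ) = ∑ ω ∈ univ.filter (fun ω => X ω = x ∧ Y ω = θ), P.w ω := by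
    intro θ _
    unfold Law.pr
    refine Finset.sum_congr ?_ fun _ _ => rfl
    ext ω
    simp [Prod.ext_iff]
  rw [Finset.sum_congr rfl h1, ← Finset.sum_biUnion]
  · unfold prE
    refine Finset.sum_congr ?_ fun _ _ => rfl
    ext ω
    simp only [mem_biUnion, mem_filter, mem_univ, true_and]
    constructor
    · rintro ⟨θ, h2, h3, h4⟩
      exact ⟨h3, h4 ▸ h2⟩
    · rintro ⟨h3, h4⟩
      exact ⟨_, h4, h3, rfl⟩
  · intro θ _ θ' _ hne
    rw [Function.onFun, Finset.disjoint_left]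
    intro ω h1 h2
    simp only [mem_filter, mem_univ, true_and] at h1 h2
    exact hne (h1.2.symm.trans h2.2)

end fin

/-! ### relative positions -/

/-- position relative to the ball `b` -/
def rel (M : ℕ) (b x : ℤ × Z2) : Z3 := (x.1 - 2 ^ M * b.1, fun k => x.2 k - 2 ^ M * b.2 k)

theorem rel_inj (M : ℕ) (b : ℤ × Z2) : Function.Injective (rel M b) := by
  intro x y h
  have h1 : x.1 - 2 ^ M * b.1 = y.1 - 2 ^ M * b.1 := congrArg Prod.fst h
  have h2 : ∀ k, x.2 k - 2 ^ M * b.2 k = y.2 k - 2 ^ M * b.2 k := fun k => congrFun (congrArg Prod.snd h) k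
  refine Prod.ext (by linarith) ?_
  funext k
  have := h2 k
  linarith

theorem dv_rel {k M : ℕ} (h : k ≤ M) (b x : ℤ × Z2) : dv k (rel M b x) = rel (M - k) b (dv k x) := by
  have e : (2:ℤ) ^ M = 2 ^ k * 2 ^ (M - k) := by
    rw [← pow_add]
    congr 1
    omega
  have hp : (2:ℤ) ^ k ≠ 0 := by positivity
  have key : ∀ a c : ℤ, (a - 2 ^ M * c) / 2 ^ k = a / 2 ^ k - 2 ^ (M - k) * c := by
    intro a c
    rw [e, mul_assoc, sub_eq_add_neg, ← mul_neg, Int.add_mul_ediv_left _ _ hp]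
    ring
  refine Prod.ext (key _ _) ?_
  funext j
  exact key _ _

variable {K : ℕ} {F : Flg K}

theorem bl_dv (S l : ℕ) (i : ℕ) (ω : F.S.Ω i) : bl F (S + l) i ω = dv (l * F.n i) (bl F S i ω) := by
  have hd : (2:ℤ) ^ ((S + l) * F.n i) = 2 ^ (S * F.n i) * 2 ^ (l * F.n i) := by
    rw [← pow_add, ← add_mul]
  have hp : (0:ℤ) ≤ 2 ^ (S * F.n i) := by positivity
  refine Prod.ext ?_ ?_
  · show (F.N 0 i ω).T / 2 ^ ((S + l) * F.n i) = (F.N 0 i ω).T / 2 ^ (S * F.n i) / 2 ^ (l * F.n i)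
    rw [hd, Int.ediv_ediv_of_nonneg hp]
  · funext k
    show (F.N 0 i ω).o k / 2 ^ ((S + l) * F.n i) = (F.N 0 i ω).o k / 2 ^ (S * F.n i) / 2 ^ (l * F.n i)
    rw [hd, Int.ediv_ediv_of_nonneg hp]

end Vale.Agent.P076.H803
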