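import Vale.Agent.P076.H803.WinC

/-!
# P076 / H803 : from the flat facts at one index to the finite configuration, part 2 : geometry (helper803)
-/

set_option autoImplicit false

namespace Vale.Agent.P076.H803

open Filter Topology Finset Vale.Agent.P127 Vale.Agent.P127.Stk Vale.Agent.P127.U Vale.Agent.P127.U.Sys
  Vale.Agent.P122.C2 Vale.Agent.P122.E Vale.Agent.P122.H518 Vale.Agent.P076.NS Vale.Agent.P076.BG
  Vale.Agent.P076.H732

theorem floor3 {x c e : ℝ} {C : ℕ} (he : |e| ≤ C) : |⌊x + c + e⌋ - ⌊x⌋ - ⌊c⌋| ≤ (C:ℤ) + 1 := by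
  have h1 := Int.floor_le x
  have h2 := Int.lt_floor_add_one x
  have h3 := Int.floor_le c
  have h4 := Int.lt_floor_add_one c
  have h5 := abs_le.1 he
  have h6 : ((⌊x⌋ + ⌊c⌋ - C : ℤ) : ℝ) ≤ x + c + e := by push_cast; linarith [h5.1]
  have h7 : x + c + e < ((⌊x⌋ + ⌊c⌋ + C + 2 : ℤ) : ℝ) := by push_cast; linarith [h5.2]
  have h8 := Int.le_floor.2 h6
  have h9 := Int.floor_lt.2 h7
  rw [abs_le]
  constructor <;> omega

variable {K : ℕ} {F : Flg K} {i : ℕ}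

/-- the projection of the relative position and the projection of the starting cell -/
theorem prj_near {N w S k l : ℕ} (M : ℕ) (hkl : k ≤ l) (hl : l ≤ N) (hNK : N * w ≤ K) (b : ℤ × Z2) {ω1 : F.S.Ω i}
    (h1 : 0 < (F.S.P i).w ω1) : ∃ z : Z2, ∀ ω, 0 < (F.S.P i).w ω → bl F (S + l * w) i ω = bl F (S + l * w) i ω1 →
      F.Y (N * w) i ω = F.Y (N * w) i ω1 → ∀ a,
      |prj (F.s i (N * w) (F.Y (N * w) i ω1)) (k * (w * F.n i)) (rel M b (bl F S i ω)) a -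
        pj F (S + k * w) ((l - k) * w) i ω a - z a| ≤ ((2 + ⌈cg F⌉₊ : ℕ) : ℤ) + 1 := by
  set h : ℕ := (l - k) * w with hh
  have hhN : h ≤ N * w := Nat.mul_le_mul_right _ (by omega)
  set v : Fin 2 → ℝ := F.s i (N * w) (F.Y (N * w) i ω1) with hv
  set s : Fin 2 → ℝ := F.s i h (F.Y h i ω1) with hs
  set c : Fin 2 → ℝ := fun a => (-((2:ℝ) ^ M * (b.2 a - b.1 * v a)) / 2 ^ (k * (w * F.n i))) +
    ((F.N 0 i ω1).T : ℝ) * (s a - v a) / 2 ^ ((S + k * w) * F.n i) with hc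
  refine ⟨fun a => ⌊c a⌋, fun ω hω e1 e2 a => ?_⟩
  have hY : F.Y h i ω = F.Y h i ω1 := by
    funext q
    show (F.N h i ω).τ q = (F.N h i ω1).τ q
    rw [Y_eq hhN hNK hω q, Y_eq hhN hNK h1 q]
    exact congrArg (fun u : Z2 => u q / 2 ^ ((N * w - h) * F.n i)) e2
  have hva : |v a| ≤ 1 := slope_bd hNK h1 a
  have hsv : |s a - v a| ≤ cg F / 2 ^ (h * F.n i) := slope_sub hhN hNK h1 a
  obtain ⟨hT, -⟩ := bl_close e1
  set T : ℝ := ((F.N 0 i ω).T : ℝ) with hTd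
  set T1 : ℝ := ((F.N 0 i ω1).T : ℝ) with hT1d
  set o : ℝ := ((F.N 0 i ω).o a : ℝ) with hod
  set D : ℝ := (2:ℝ) ^ (S * F.n i) with hD
  set G : ℝ := (2:ℝ) ^ (k * (w * F.n i)) with hG
  have hD0 : 0 < D := by positivity
  have hG1 : 1 ≤ G := one_le_pow₀ (by norm_num)
  have hG0 : 0 < G := by positivity
  have hDG : (2:ℝ) ^ ((S + k * w) * F.n i) = D * G := by
    rw [hD, hG, ← pow_add]
    congr 1
    ring
  have hpow : ∀ z : ℤ, ((z / 2 ^ (S * F.n i) : ℤ) : ℝ) ≤ (z:ℝ) / D ∧ (z:ℝ) / D < ((z / 2 ^ (S * F.n i) : ℤ) : ℝ) + 1 := by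
    intro z
    have e : (z / 2 ^ (S * F.n i) : ℤ) = ⌊(z:ℝ) / D⌋ := by
      have := Int.floor_div_natCast (z:ℝ) (2 ^ (S * F.n i))
      rw [Int.floor_intCast] at this
      rw [hD]
      push_cast at this
      exact this.symm
    rw [e]
    exact ⟨Int.floor_le _, Int.lt_floor_add_one _⟩
  set fo : ℝ := (((F.N 0 i ω).o a / 2 ^ (S * F.n i) : ℤ) : ℝ) with hfo
  set fT : ℝ := (((F.N 0 i ω).T / 2 ^ (S * F.n i) : ℤ) : ℝ) with hfT
  obtain ⟨p1, p2⟩ := hpow ((F.N 0 i ω).o a)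
  obtain ⟨q1, q2⟩ := hpow ((F.N 0 i ω).T)
  -- the error
  set e : ℝ := ((fo - o / D) - (fT - T / D) * v a) / G + (T - T1) * (s a - v a) / (D * G) with he
  have heb : |e| ≤ ((2 + ⌈cg F⌉₊ : ℕ) : ℝ) := by
    have x1 : |((fo - o / D) - (fT - T / D) * v a) / G| ≤ 2 := by
      rw [abs_div, abs_of_pos hG0, div_le_iff₀ hG0]
      have y1 : |fo - o / D| ≤ 1 := by
        rw [abs_le]
        constructor <;> linarith
      have y2 : |fT - T / D| ≤ 1 := by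
        rw [abs_le]
        constructor <;> linarith
      have y3 : |(fT - T / D) * v a| ≤ 1 := by
        rw [abs_mul]
        calc _ ≤ (1:ℝ) * 1 := mul_le_mul y2 hva (abs_nonneg _) (by norm_num)
          _ = 1 := one_mul _
      have y4 := abs_sub (fo - o / D) ((fT - T / D) * v a)
      linarith
    have x2 : |(T - T1) * (s a - v a) / (D * G)| ≤ cg F := by
      rw [abs_div, abs_of_pos (mul_pos hD0 hG0), div_le_iff₀ (mul_pos hD0 hG0), abs_mul]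
      refine (mul_le_mul hT hsv (abs_nonneg _) (by positivity)).trans (le_of_eq ?_)
      have e3 : (2:ℝ) ^ ((S + l * w) * F.n i) = D * G * 2 ^ (h * F.n i) := by
        rw [← hDG, ← pow_add]
        congr 1
        rw [hh, ← add_mul, add_assoc, ← add_mul]
        congr 3
        omega
      rw [e3]
      field_simp
    have x3 := abs_add_le (((fo - o / D) - (fT - T / D) * v a) / G) ((T - T1) * (s a - v a) / (D * G))
    have x4 := Nat.le_ceil (cg F)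
    push_cast
    linarith
  have key : (((rel M b (bl F S i ω)).2 a : ℝ) - (rel M b (bl F S i ω)).1 * v a) / 2 ^ (k * (w * F.n i)) =
      (o - T * s a) / 2 ^ ((S + k * w) * F.n i) + c a + e := by
    have r1 : ((rel M b (bl F S i ω)).2 a : ℝ) = fo - 2 ^ M * b.2 a := by
      show ((((F.N 0 i ω).o a / 2 ^ (S * F.n i) - 2 ^ M * b.2 a : ℤ)) : ℝ) = _
      push_cast
      rfl
    have r2 : ((rel M b (bl F S i ω)).1 : ℝ) = fT - 2 ^ M * b.1 := by
      show ((((F.N 0 i ω).T / 2 ^ (S * F.n i) - 2 ^ M * b.1 : ℤ)) : ℝ) = _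
      push_cast
      rfl
    rw [r1, r2, hDG, hc, he]
    simp only
    rw [hDG]
    field_simp
    ring
  have e5 : prj v (k * (w * F.n i)) (rel M b (bl F S i ω)) a = ⌊(o - T * s a) / 2 ^ ((S + k * w) * F.n i) + c a + e⌋ := by
    unfold prj
    rw [key]
  have e6 : pj F (S + k * w) h i ω a = ⌊(o - T * s a) / 2 ^ ((S + k * w) * F.n i)⌋ := by
    unfold pj
    rw [hY]
  rw [e5, e6]
  exact floor3 heb

/-- caps of directions : the ancestors are in a box -/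
theorem cap_near {N w j : ℕ} (hj : j ≤ N) (hNK : N * w ≤ K) (c : Fin 2 → ℝ) {ω ω1 : F.S.Ω i}
    (h : 0 < (F.S.P i).w ω) (h1 : 0 < (F.S.P i).w ω1)
    (hc : ∀ a, |F.s i (N * w) (F.Y (N * w) i ω) a - c a| ≤ (2:ℝ) ^ (-((j : ℝ) * (w * F.n i : ℕ))))
    (hc1 : ∀ a, |F.s i (N * w) (F.Y (N * w) i ω1) a - c a| ≤ (2:ℝ) ^ (-((j : ℝ) * (w * F.n i : ℕ)))) (a : Fin 2) :
    |F.Y (j * w) i ω a - F.Y (j * w) i ω1 a| ≤ (⌈F.C * (5 + 4 * cg F)⌉₊ : ℤ) := by
  have hC := Vale.Agent.P122.K931.C_nonneg F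
  have hcg := cg_nonneg F
  have hjN : j * w ≤ N * w := Nat.mul_le_mul_right _ hj
  set D : ℝ := (2:ℝ) ^ (j * w * F.n i) with hD
  have hD0 : 0 < D := by positivity
  have e1 : (2:ℝ) ^ (-((j : ℝ) * (w * F.n i : ℕ))) = 1 / D := by
    rw [Real.rpow_neg (by norm_num), one_div, hD, ← Real.rpow_natCast]
    congr 2
    push_cast
    ring
  have h2 : ∀ q, |F.s i (j * w) (F.Y (j * w) i ω) q - F.s i (j * w) (F.Y (j * w) i ω1) q| ≤ 2 * (1 + cg F) / D := by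
    intro q
    have y1 := hc q
    have y2 := hc1 q
    rw [e1] at y1 y2
    have y3 := slope_sub hjN hNK h q
    have y4 := slope_sub hjN hNK h1 q
    change |F.s i (j * w) (F.Y (j * w) i ω) q - F.s i (N * w) (F.Y (N * w) i ω) q| ≤ cg F / D at y3
    change |F.s i (j * w) (F.Y (j * w) i ω1) q - F.s i (N * w) (F.Y (N * w) i ω1) q| ≤ cg F / D at y4
    have e2 : 2 * (1 + cg F) / D = 2 * (1 / D) + 2 * (cg F / D) := by ring
    rw [e2]
    rw [abs_le] at *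
    constructor <;> linarith [y1.1, y1.2, y2.1, y2.2, y3.1, y3.2, y4.1, y4.2]
  have h3 := (F.slp i).colip (j * w) (F.Y (j * w) i ω) (F.Y (j * w) i ω1) (hjN.trans hNK)
    (cap_N (hjN.trans hNK) h) (cap_N (hjN.trans hNK) h1)
  have h4 : F.C * (2 ^ (j * w * F.n i) * (|F.s i (j * w) (F.Y (j * w) i ω) 0 - F.s i (j * w) (F.Y (j * w) i ω1) 0| +
      |F.s i (j * w) (F.Y (j * w) i ω) 1 - F.s i (j * w) (F.Y (j * w) i ω1) 1|) + 1) ≤ F.C * (5 + 4 * cg F) := by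
    refine mul_le_mul_of_nonneg_left ?_ hC
    have y0 := h2 0
    have y1 := h2 1
    have y2 := mul_le_mul_of_nonneg_left (add_le_add y0 y1) hD0.le
    have e3 : D * (2 * (1 + cg F) / D + 2 * (1 + cg F) / D) = 4 * (1 + cg F) := by
      field_simp
      ring
    rw [e3] at y2
    linarith
  have h5 : |((F.Y (j * w) i ω a : ℤ) : ℝ) - F.Y (j * w) i ω1 a| ≤ F.C * (5 + 4 * cg F) := by
    refine le_trans ?_ (h3.trans h4)
    fin_cases a
    · exact le_add_of_nonneg_right (abs_nonneg _)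
    · exact le_add_of_nonneg_left (abs_nonneg _)
  have h6 := h5.trans (Nat.le_ceil _)
  exact_mod_cast h6

theorem C_pos (hn : 1 ≤ F.n i) : 0 < F.C := by
  have hC := Vale.Agent.P122.K931.C_nonneg F
  have hK := BG.K_pos F
  have h := (F.slp i).colip 1 0 (fun k => if k = 0 then 1 else 0) hK (fun k => ⟨le_rfl, by
      show (0:ℤ) < _
      positivity⟩)
    (fun k => by
      have : (1:ℤ) < 2 ^ (1 * F.n i) := one_lt_pow₀ (by norm_num) (by omega)
      show (0:ℤ) ≤ (if k = 0 then 1 else 0) ∧ (if k = 0 then (1:ℤ) else 0) < 2 ^ (1 * F.n i)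
      split_ifs
      · exact ⟨by norm_num, this⟩
      · exact ⟨le_rfl, by omega⟩)
  rcases hC.eq_or_lt with h0 | h0
  · rw [← h0] at h
    norm_num at h
  · exact h0

/-- strips of directions -/
theorem str_near {N w : ℕ} (hNw : 1 ≤ N * w) (hNK : N * w ≤ K) {ϑ r : ℝ} {ω : F.S.Ω i} {u : ℝ}
    (h : 0 < (F.S.P i).w ω) (hu : u ≤ 1 / (2:ℝ) ^ F.n i) (hr : |nc ϑ (F.s i (N * w) (F.Y (N * w) i ω)) - r| ≤ u) :
    |fn ϑ (F.s i 1 (F.Y 1 i ω)) - r| ≤ (1 + 2 * cg F) / (2:ℝ) ^ F.n i := by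
  have y0 := slope_sub hNw hNK h 0
  have y1 := slope_sub hNw hNK h 1
  change |F.s i 1 (F.Y 1 i ω) 0 - F.s i (N * w) (F.Y (N * w) i ω) 0| ≤ cg F / 2 ^ (1 * F.n i) at y0
  change |F.s i 1 (F.Y 1 i ω) 1 - F.s i (N * w) (F.Y (N * w) i ω) 1| ≤ cg F / 2 ^ (1 * F.n i) at y1
  rw [one_mul] at y0 y1
  have hcg := cg_nonneg F
  have e1 : fn ϑ (F.s i 1 (F.Y 1 i ω)) - r =
      (nc ϑ (F.s i (N * w) (F.Y (N * w) i ω)) - r) +
      (-Real.sin ϑ * (F.s i 1 (F.Y 1 i ω) 0 - F.s i (N * w) (F.Y (N * w) i ω) 0) +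
        Real.cos ϑ * (F.s i 1 (F.Y 1 i ω) 1 - F.s i (N * w) (F.Y (N * w) i ω) 1)) := by
    unfold fn nc
    ring
  have hD0 : 0 ≤ cg F / (2:ℝ) ^ F.n i := by positivity
  have z0 : |(-Real.sin ϑ) * (F.s i 1 (F.Y 1 i ω) 0 - F.s i (N * w) (F.Y (N * w) i ω) 0)| ≤ cg F / 2 ^ F.n i := by
    rw [abs_mul, abs_neg]
    calc _ ≤ 1 * (cg F / 2 ^ F.n i) := mul_le_mul (Real.abs_sin_le_one _) y0 (abs_nonneg _) (by norm_num)
      _ = _ := one_mul _
  have z1 : |Real.cos ϑ * (F.s i 1 (F.Y 1 i ω) 1 - F.s i (N * w) (F.Y (N * w) i ω) 1)| ≤ cg F / 2 ^ F.n i := by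
    rw [abs_mul]
    calc _ ≤ 1 * (cg F / 2 ^ F.n i) := mul_le_mul (Real.abs_cos_le_one _) y1 (abs_nonneg _) (by norm_num)
      _ = _ := one_mul _
  rw [e1]
  have e2 : (1 + 2 * cg F) / (2:ℝ) ^ F.n i = 1 / (2:ℝ) ^ F.n i + (cg F / 2 ^ F.n i + cg F / 2 ^ F.n i) := by ring
  rw [e2]
  exact (abs_add_le _ _).trans (add_le_add (hr.trans hu) ((abs_add_le _ _).trans (add_le_add z0 z1)))

/-- a strip is covered by thinner strips -/
theorem cover_strip {C u r x : ℝ} {M : ℕ} (hC : 0 < C) (hM : u ≤ C * M) (hx : |x - r| ≤ u) :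
    ∃ k ∈ Finset.Icc (-(M:ℤ)) M, |x - (r + C * k)| ≤ C := by
  refine ⟨⌊(x - r) / C⌋, ?_, ?_⟩
  · rw [Finset.mem_Icc]
    have h1 : |(x - r) / C| ≤ M := by
      rw [abs_div, abs_of_pos hC, div_le_iff₀ hC]
      linarith
    rw [abs_le] at h1
    constructor
    · rw [Int.le_floor]
      push_cast
      exact h1.1
    · have := (Int.floor_le ((x - r) / C)).trans h1.2
      exact_mod_cast this
  · have h1 := Int.floor_le ((x - r) / C)
    have h2 := Int.lt_floor_add_one ((x - r) / C)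
    have e1 : x - (r + C * (⌊(x - r) / C⌋ : ℤ)) = C * ((x - r) / C - ⌊(x - r) / C⌋) := by
      field_simp
      ring
    rw [e1, abs_mul, abs_of_pos hC]
    have h3 : |(x - r) / C - ⌊(x - r) / C⌋| ≤ 1 := by
      rw [abs_le]
      constructor <;> linarith
    nlinarith

end Vale.Agent.P076.H803
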