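import Vale.Agent.P076.H803.WinD
import Vale.Agent.P076.BG.Two

/-!
# P076 / H803 : from the flat facts at one index to the finite configuration, part 3 : the configuration (helper803)
-/

set_option autoImplicit false

namespace Vale.Agent.P076.H803

open Filter Topology Finset Vale.Agent.P127 Vale.Agent.P127.Stk Vale.Agent.P127.U Vale.Agent.P127.U.Sys
  Vale.Agent.P122.C2 Vale.Agent.P122.E Vale.Agent.P122.H518 Vale.Agent.P076.NS Vale.Agent.P076.BG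
  Vale.Agent.P076.H732

section fin

variable {Ω : Type} [Fintype Ω] (P : Law Ω)

theorem pr_inj {α β : Type*} {f : α → β} (hf : Function.Injective f) (X : Ω → α) (x : α) :
    P.pr (fun ω => f (X ω)) (f x) = P.pr X x := by
  classical
  unfold Law.pr
  refine Finset.sum_congr ?_ fun _ _ => rfl
  ext ω
  simp [hf.eq_iff]

theorem prE_pr {α : Type*} (X : Ω → α) (x : α) : prE P (fun ω => X ω = x) = P.pr X x := rfl

theorem prE_ex (E : Ω → Prop) [DecidablePred E] : P.ex (fun ω => if E ω then 1 else 0) = prE P E := by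
  classical
  unfold prE Law.ex
  rw [Finset.sum_filter]
  refine Finset.sum_congr rfl fun ω _ => ?_
  by_cases h : E ω <;> simp [h]

theorem pr_exists {α : Type*} {X : Ω → α} {x : α} (h : P.pr X x ≠ 0) : ∃ ω, 0 < P.w ω ∧ X ω = x := by
  classical
  unfold Law.pr at h
  obtain ⟨ω, hω, h3⟩ := Finset.exists_ne_zero_of_sum_ne_zero h
  rw [Finset.mem_filter] at hω
  exact ⟨ω, lt_of_le_of_ne (P.nn ω) (Ne.symm h3), hω.2⟩

theorem prE_iUnion {κ : Type*} (s : Finset κ) (E : κ → Ω → Prop) :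
    prE P (fun ω => ∃ k ∈ s, E k ω) ≤ ∑ k ∈ s, prE P (E k) := by
  classical
  have h1 : ∀ k, prE P (E k) = ∑ ω, if E k ω then P.w ω else 0 := by
    intro k
    unfold prE
    rw [Finset.sum_filter]
  simp only [h1]
  rw [Finset.sum_comm]
  unfold prE
  rw [Finset.sum_filter]
  refine Finset.sum_le_sum fun ω _ => ?_
  have hnn : ∀ k ∈ s, (0:ℝ) ≤ if E k ω then P.w ω else 0 := by
    intro k _
    split_ifs
    · exact P.nn ω
    · exact le_rfl
  split_ifs with hc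
  · obtain ⟨k, hk, hE⟩ := hc
    have h2 := Finset.single_le_sum hnn hk
    rwa [if_pos hE] at h2
  · exact Finset.sum_nonneg hnn

theorem prE_fib {α β : Type*} (X : Ω → α) (R : Ω → β) (hR : ∀ ω ω', X ω = X ω' → R ω = R ω') (E : Ω → Prop) (t : ℝ)
    (h : ∀ ω0, 0 < P.w ω0 → prE P (fun ω => X ω = X ω0 ∧ E ω) ≤ t * P.pr X (X ω0)) (p : β) :
    prE P (fun ω => R ω = p ∧ E ω) ≤ t * P.pr R p := by
  classical
  set G : Finset α := (univ.filter fun ω => 0 < P.w ω ∧ R ω = p).image X with hG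
  have h1 : prE P (fun ω => R ω = p ∧ E ω) ≤ ∑ x ∈ G, prE P (fun ω => X ω = x ∧ E ω) := by
    refine le_trans (prE_mono P fun ω hω he => ?_) (prE_iUnion P G fun x ω => X ω = x ∧ E ω)
    exact ⟨X ω, Finset.mem_image.2 ⟨ω, Finset.mem_filter.2 ⟨Finset.mem_univ _, hω, he.1⟩, rfl⟩, rfl, he.2⟩
  refine h1.trans ?_
  have h2 : ∀ x ∈ G, prE P (fun ω => X ω = x ∧ E ω) ≤ t * P.pr X x := by
    intro x hx
    obtain ⟨ω, hω, rfl⟩ := Finset.mem_image.1 hx
    exact h ω (Finset.mem_filter.1 hω).2.1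
  refine (Finset.sum_le_sum h2).trans (le_of_eq ?_)
  rw [← Finset.mul_sum, prE_eq_sum_pr]
  congr 1
  rw [← prE_pr]
  refine le_antisymm (prE_mono P fun ω _ hω => ?_) (prE_mono P fun ω hw hω => ?_)
  · obtain ⟨ω', h3, h4⟩ := Finset.mem_image.1 hω
    rw [← (Finset.mem_filter.1 h3).2.2]
    exact hR _ _ h4.symm
  · exact Finset.mem_image.2 ⟨ω, Finset.mem_filter.2 ⟨Finset.mem_univ _, hw, hω⟩, rfl⟩

/-- mass of a set of values of a pair -/
theorem prE_box {α β : Type*} (X : Ω → α) (Y : Ω → β) (x : α) (B : Finset β) (q : ℝ) (hq : 0 ≤ q)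
    (h : ∀ ω, P.pr (fun ω => (X ω, Y ω)) (X ω, Y ω) ≤ q) :
    prE P (fun ω => X ω = x ∧ Y ω ∈ B) ≤ B.card * q := by
  classical
  rw [← sum_pr_pair_le, ← nsmul_eq_mul]
  exact Finset.sum_le_card_nsmul _ _ q fun θ _ => BG.pr_le_of_all P (fun ω => (X ω, Y ω)) q hq h (x, θ)

end fin

theorem up_aux {x q H a B c : ℝ} (hx : x ≤ H⁻¹ * B) (hq : 1 / (c * (H * a)) ≤ q) (hc : 0 < c) (hH : 0 < H)
    (ha : 0 < a) (hB : 0 ≤ B) : x ≤ c * a * B * q := by
  refine hx.trans ?_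
  rw [div_le_iff₀ (by positivity)] at hq
  have h1 : H⁻¹ * B * 1 ≤ H⁻¹ * B * (q * (c * (H * a))) := mul_le_mul_of_nonneg_left hq (by positivity)
  have h2 : H⁻¹ * B * (q * (c * (H * a))) = c * a * B * q := by
    field_simp
  linarith

theorem card_box (f : Z2) (C : ℕ) : ((Fintype.piFinset fun a => Finset.Icc (f a - C) (f a + C) : Finset Z2).card : ℝ) =
    (2 * C + 1) ^ 2 := by
  rw [Fintype.card_piFinset, Fin.prod_univ_two]
  have : ∀ a : ℤ, (Finset.Icc (a - C) (a + C)).card = 2 * C + 1 := by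
    intro a
    rw [Int.card_Icc]
    omega
  rw [this, this]
  push_cast
  ring

variable {K : ℕ} {F : Flg K} {i : ℕ}

section loc

variable {ρ E d t H0 HN : ℝ} {N w S : ℕ}

open Classical in
/-- the cells -/
noncomputable def Pc (F : Flg K) (i N w S : ℕ) (g : ℝ) (ωb : F.S.Ω i) : Finset Z3 :=
  (univ.filter fun ω => 0 < (F.S.P i).w ω ∧ bl F (S + N * w) i ω = bl F (S + N * w) i ωb ∧
    g ≤ (F.S.P i).pr (bl F S i) (bl F S i ω)).image
    fun ω => rel (N * (w * F.n i)) (bl F (S + N * w) i ωb) (bl F S i ω)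

open Classical in
/-- the directions -/
noncomputable def Tc (F : Flg K) (i N w S : ℕ) (ωb : F.S.Ω i) : Finset Z2 :=
  (univ.filter fun ω => 0 < (F.S.P i).w ω ∧ bl F (S + N * w) i ω = bl F (S + N * w) i ωb).image (F.Y (N * w) i)

/-- relative position -/
def Rc (F : Flg K) (i N w S : ℕ) (ωb ω : F.S.Ω i) : Z3 :=
  rel (N * (w * F.n i)) (bl F (S + N * w) i ωb) (bl F S i ω)

/-- the law -/
noncomputable def mc (F : Flg K) (i N w S : ℕ) (ωb : F.S.Ω i) (p : Z3) (θ : Z2) : ℝ :=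
  (F.S.P i).pr (fun ω => (Rc F i N w S ωb ω, F.Y (N * w) i ω)) (p, θ) /
    (F.S.P i).pr (bl F (S + N * w) i) (bl F (S + N * w) i ωb)

variable {g : ℝ} {ωb : F.S.Ω i}

theorem mem_Pc {p : Z3} : p ∈ Pc F i N w S g ωb ↔ ∃ ω, 0 < (F.S.P i).w ω ∧
    bl F (S + N * w) i ω = bl F (S + N * w) i ωb ∧ g ≤ (F.S.P i).pr (bl F S i) (bl F S i ω) ∧ Rc F i N w S ωb ω = p := by
  classical
  unfold Pc
  rw [Finset.mem_image]
  constructor
  · rintro ⟨ω, h1, h2⟩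
    obtain ⟨-, h3, h4, h5⟩ := Finset.mem_filter.1 h1
    exact ⟨ω, h3, h4, h5, h2⟩
  · rintro ⟨ω, h3, h4, h5, h2⟩
    exact ⟨ω, Finset.mem_filter.2 ⟨Finset.mem_univ _, h3, h4, h5⟩, h2⟩

theorem mem_Tc {θ : Z2} : θ ∈ Tc F i N w S ωb ↔ ∃ ω, 0 < (F.S.P i).w ω ∧
    bl F (S + N * w) i ω = bl F (S + N * w) i ωb ∧ F.Y (N * w) i ω = θ := by
  classical
  unfold Tc
  rw [Finset.mem_image]
  constructor
  · rintro ⟨ω, h1, h2⟩
    obtain ⟨-, h3, h4⟩ := Finset.mem_filter.1 h1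
    exact ⟨ω, h3, h4, h2⟩
  · rintro ⟨ω, h3, h4, h2⟩
    exact ⟨ω, Finset.mem_filter.2 ⟨Finset.mem_univ _, h3, h4⟩, h2⟩

/-- all the points over a cell of `Pc` -/
theorem Pc_fib {p : Z3} (hp : p ∈ Pc F i N w S g ωb) {ω : F.S.Ω i} (e : Rc F i N w S ωb ω = p) :
    bl F (S + N * w) i ω = bl F (S + N * w) i ωb ∧ g ≤ (F.S.P i).pr (bl F S i) (bl F S i ω) := by
  obtain ⟨ω', _, h2, h3, h4⟩ := mem_Pc.1 hp
  have h5 : bl F S i ω = bl F S i ω' := rel_inj _ _ (e.trans h4.symm)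
  rw [bl_dv S (N * w) i ω, h5, ← bl_dv S (N * w) i ω']
  exact ⟨h2, h3⟩

theorem pr_Rc (ω : F.S.Ω i) : (F.S.P i).pr (Rc F i N w S ωb) (Rc F i N w S ωb ω) = (F.S.P i).pr (bl F S i) (bl F S i ω) :=
  pr_inj (F.S.P i) (rel_inj _ _) (bl F S i) (bl F S i ω)

theorem pr_Rc2 (Y : F.S.Ω i → Z2) (ω : F.S.Ω i) : (F.S.P i).pr (fun ω => (Rc F i N w S ωb ω, Y ω)) (Rc F i N w S ωb ω, Y ω) =
    (F.S.P i).pr (fun ω => (bl F S i ω, Y ω)) (bl F S i ω, Y ω) :=
  pr_inj (F.S.P i) (f := fun x : (ℤ × Z2) × Z2 => (rel (N * (w * F.n i)) (bl F (S + N * w) i ωb) x.1, x.2))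
    (fun x y e => by
      have e' := Prod.mk.inj e
      exact Prod.ext (rel_inj _ _ e'.1) e'.2) (fun ω => (bl F S i ω, Y ω)) (bl F S i ω, Y ω)

theorem dv_Rc {k : ℕ} (hk : k ≤ N) (ω : F.S.Ω i) : dv (k * (w * F.n i)) (Rc F i N w S ωb ω) =
    rel ((N - k) * (w * F.n i)) (bl F (S + N * w) i ωb) (bl F (S + k * w) i ω) := by
  unfold Rc
  rw [dv_rel (Nat.mul_le_mul_right _ hk), bl_dv S (k * w) i ω, ← Nat.sub_mul, mul_assoc]

theorem sum_mc {p : Z3} (hp : p ∈ Pc F i N w S g ωb) : ∑ θ ∈ Tc F i N w S ωb, mc F i N w S ωb p θ =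
    (F.S.P i).pr (Rc F i N w S ωb) p / (F.S.P i).pr (bl F (S + N * w) i) (bl F (S + N * w) i ωb) := by
  unfold mc
  rw [← Finset.sum_div, sum_pr_pair]
  intro ω hω e
  exact mem_Tc.2 ⟨ω, hω, (Pc_fib hp e).1, rfl⟩

end loc

end Vale.Agent.P076.H803
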