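import Vale.Agent.P076.H803.WinE

/-!
# P076 / H803 : from the flat facts at one index to the finite configuration, part 4 : the fields (helper803)
-/

set_option autoImplicit false

namespace Vale.Agent.P076.H803

open Filter Topology Finset Vale.Agent.P127 Vale.Agent.P127.Stk Vale.Agent.P127.U Vale.Agent.P127.U.Sys
  Vale.Agent.P122.C2 Vale.Agent.P122.E Vale.Agent.P122.H518 Vale.Agent.P076.NS Vale.Agent.P076.BG
  Vale.Agent.P076.H732

variable {K : ℕ} {F : Flg K} {i : ℕ} {ρ E d t H0 HN : ℝ} {N w S : ℕ} {g : ℝ} {ωb : F.S.Ω i}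

theorem c1_of (h : FF F i ρ E d t H0 HN N w S (w * F.n i)) (hb : 0 < (F.S.P i).w ωb) {j : ℕ} (hj : j ≤ N) :
    (((Pc F i N w S g ωb).image (dv ((N - j) * (w * F.n i)))).card : ℝ) ≤
      (2:ℝ) ^ ((3 * ρ * j + E * N) * (w * F.n i : ℕ)) := by
  obtain ⟨U, hU, hU'⟩ := h.f1 (N - j) N (Nat.sub_le _ _) le_rfl ωb hb
  have hsub : (Pc F i N w S g ωb).image (dv ((N - j) * (w * F.n i))) ⊆
      U.image (rel (j * (w * F.n i)) (bl F (S + N * w) i ωb)) := by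
    intro c hc
    obtain ⟨p, hp, rfl⟩ := Finset.mem_image.1 hc
    obtain ⟨ω, h1, h2, _, rfl⟩ := mem_Pc.1 hp
    rw [dv_Rc (Nat.sub_le _ _)]
    have e : N - (N - j) = j := by omega
    rw [e]
    exact Finset.mem_image_of_mem _ (hU' ω h1 h2)
  refine (Nat.cast_le.2 ((Finset.card_le_card hsub).trans Finset.card_image_le)).trans (hU.trans (le_of_eq ?_))
  congr 2
  rw [Nat.cast_sub hj]
  ring

theorem c2_of (h : FF F i ρ E d t H0 HN N w S (w * F.n i)) {j : ℕ} (hj : j ≤ N) (c : Z3) :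
    (((Pc F i N w S g ωb).filter fun p => dv ((N - j) * (w * F.n i)) p = c).card : ℝ) ≤
      (2:ℝ) ^ ((3 * ρ * ((N : ℝ) - j) + E * N) * (w * F.n i : ℕ)) := by
  rcases ((Pc F i N w S g ωb).filter fun p => dv ((N - j) * (w * F.n i)) p = c).eq_empty_or_nonempty with he | ⟨p1, hp1⟩
  · rw [he, Finset.card_empty, Nat.cast_zero]
    positivity
  · obtain ⟨h1, h2⟩ := Finset.mem_filter.1 hp1
    obtain ⟨ω1, a1, a2, _, rfl⟩ := mem_Pc.1 h1
    obtain ⟨U, hU, hU'⟩ := h.f1 0 (N - j) (Nat.zero_le _) (Nat.sub_le _ _) ω1 a1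
    have hsub : ((Pc F i N w S g ωb).filter fun p => dv ((N - j) * (w * F.n i)) p = c) ⊆
        U.image (rel (N * (w * F.n i)) (bl F (S + N * w) i ωb)) := by
      intro p hp
      obtain ⟨h3, h4⟩ := Finset.mem_filter.1 hp
      obtain ⟨ω, a3, a4, _, rfl⟩ := mem_Pc.1 h3
      have e := h4.trans h2.symm
      rw [dv_Rc (Nat.sub_le _ _), dv_Rc (Nat.sub_le _ _)] at e
      have h5 := hU' ω a3 (rel_inj _ _ e)
      rw [zero_mul, add_zero] at h5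
      exact Finset.mem_image.2 ⟨_, h5, rfl⟩
    refine (Nat.cast_le.2 ((Finset.card_le_card hsub).trans Finset.card_image_le)).trans (hU.trans (le_of_eq ?_))
    congr 2
    rw [Nat.cast_sub hj]
    push_cast
    ring

open Classical in
theorem c3_of (h : FF F i ρ E d t H0 HN N w S (w * F.n i)) (hNK : N * w ≤ K) {θ : Z2} {a j : ℕ} (haj : a ≤ j)
    (hj : j ≤ N) (c : Z3) :
    ((((Pc F i N w S g ωb).filter fun p => mc F i N w S ωb p θ ≠ 0 ∧ dv ((N - a) * (w * F.n i)) p = c).image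
      (prj (F.s i (N * w) θ) ((N - j) * (w * F.n i)))).card : ℝ) ≤
      (2 * (3 + ⌈cg F⌉₊ : ℕ) + 1) ^ 2 * (2:ℝ) ^ ((2 * ρ * ((j : ℝ) - a) + E * N) * (w * F.n i : ℕ)) := by
  rcases ((Pc F i N w S g ωb).filter fun p => mc F i N w S ωb p θ ≠ 0 ∧
    dv ((N - a) * (w * F.n i)) p = c).eq_empty_or_nonempty with he | ⟨p1, hp1⟩
  · rw [he, Finset.image_empty, Finset.card_empty, Nat.cast_zero]
    positivity
  · obtain ⟨h1, h0, h2⟩ := Finset.mem_filter.1 hp1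
    obtain ⟨ω1, a1, a2⟩ := pr_exists (F.S.P i) (left_ne_zero_of_mul h0)
    obtain ⟨e1, e2⟩ := Prod.mk.inj a2
    obtain ⟨U, hU, hU'⟩ := h.f2 (N - j) (N - a) (by omega) (Nat.sub_le _ _) ω1 a1
    obtain ⟨z, hz⟩ := prj_near (S := S) (N * (w * F.n i)) (show N - j ≤ N - a by omega) (Nat.sub_le N a) hNK
      (bl F (S + N * w) i ωb) a1
    set f : Z2 → Finset Z2 := fun u => Fintype.piFinset fun q => Finset.Icc ((u q + z q) - (3 + ⌈cg F⌉₊ : ℕ))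
      ((u q + z q) + (3 + ⌈cg F⌉₊ : ℕ)) with hf
    have hsub : (((Pc F i N w S g ωb).filter fun p => mc F i N w S ωb p θ ≠ 0 ∧ dv ((N - a) * (w * F.n i)) p = c).image
        (prj (F.s i (N * w) θ) ((N - j) * (w * F.n i)))) ⊆ U.biUnion f := by
      intro q hq
      obtain ⟨p, hp, rfl⟩ := Finset.mem_image.1 hq
      obtain ⟨h3, h4, h5⟩ := Finset.mem_filter.1 hp
      obtain ⟨ω, b1, b2⟩ := pr_exists (F.S.P i) (left_ne_zero_of_mul h4)
      obtain ⟨e3, e4⟩ := Prod.mk.inj b2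
      have e5 : dv ((N - a) * (w * F.n i)) (Rc F i N w S ωb ω) = dv ((N - a) * (w * F.n i)) (Rc F i N w S ωb ω1) := by
        rw [e1, e3, h2, h5]
      rw [dv_Rc (Nat.sub_le _ _), dv_Rc (Nat.sub_le _ _)] at e5
      have e6 := rel_inj _ _ e5
      have hYb : ((N - a) - (N - j)) * w ≤ N * w := Nat.mul_le_mul_right _ (by omega)
      have e7 : F.Y (((N - a) - (N - j)) * w) i ω = F.Y (((N - a) - (N - j)) * w) i ω1 := by
        funext r
        show (F.N _ i ω).τ r = (F.N _ i ω1).τ r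
        rw [Y_eq hYb hNK b1 r, Y_eq hYb hNK a1 r]
        exact congrArg (fun u : Z2 => u r / 2 ^ ((N * w - ((N - a) - (N - j)) * w) * F.n i)) (e4.trans e2.symm)
      refine Finset.mem_biUnion.2 ⟨_, hU' ω b1 e6 e7, ?_⟩
      rw [hf, Fintype.mem_piFinset]
      intro r
      have h6 := hz ω b1 e6 (e4.trans e2.symm) r
      rw [e2] at h6
      have e8 : rel (N * (w * F.n i)) (bl F (S + N * w) i ωb) (bl F S i ω) = p := e3
      rw [e8, abs_le] at h6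
      rw [Finset.mem_Icc]
      push_cast at h6 ⊢
      constructor <;> linarith [h6.1, h6.2]
    have hcard : ((U.biUnion f).card : ℝ) ≤ ∑ u ∈ U, ((f u).card : ℝ) := by
      exact_mod_cast Finset.card_biUnion_le
    have hf2 : ∀ u, ((f u).card : ℝ) = (2 * (3 + ⌈cg F⌉₊ : ℕ) + 1) ^ 2 := fun u =>
      card_box (fun q => u q + z q) (3 + ⌈cg F⌉₊)
    refine (Nat.cast_le.2 (Finset.card_le_card hsub)).trans (hcard.trans ?_)
    simp only [hf2, Finset.sum_const, nsmul_eq_mul]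
    rw [mul_comm]
    refine mul_le_mul_of_nonneg_left (hU.trans (le_of_eq ?_)) (by positivity)
    congr 2
    rw [Nat.cast_sub hj, Nat.cast_sub (haj.trans hj)]
    ring

theorem up_of (h : FF F i ρ E d t H0 HN N w S (w * F.n i)) (hHN : 0 < HN)
    (hq : 1 / (8 * (HN * (2:ℝ) ^ (E * N * (w * F.n i : ℕ)))) ≤ (F.S.P i).pr (bl F (S + N * w) i) (bl F (S + N * w) i ωb))
    {p : Z3} (hp : p ∈ Pc F i N w S g ωb) : ∑ θ ∈ Tc F i N w S ωb, mc F i N w S ωb p θ ≤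
      8 * (2:ℝ) ^ (E * N * (w * F.n i : ℕ)) * (2:ℝ) ^ (-(3 * ρ - E) * N * (w * F.n i : ℕ)) := by
  have hq0 : 0 < (F.S.P i).pr (bl F (S + N * w) i) (bl F (S + N * w) i ωb) := lt_of_lt_of_le (by positivity) hq
  rw [sum_mc hp, div_le_iff₀ hq0]
  obtain ⟨ω, _, _, _, rfl⟩ := mem_Pc.1 hp
  rw [pr_Rc]
  exact up_aux (h.f4 ω) hq (by norm_num) hHN (by positivity) (by positivity)

theorem flat_of (h : FF F i ρ E d t H0 HN N w S (w * F.n i)) (hH0 : 0 < H0)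
    (hg : 1 / (32 * (H0 * (2:ℝ) ^ (E * N * (w * F.n i : ℕ)))) ≤ g)
    {p : Z3} (hp : p ∈ Pc F i N w S g ωb) (θ : Z2) : mc F i N w S ωb p θ ≤
      32 * (2:ℝ) ^ (E * N * (w * F.n i : ℕ)) * (2:ℝ) ^ (-(d - E) * N * (w * F.n i : ℕ)) *
        ∑ θ' ∈ Tc F i N w S ωb, mc F i N w S ωb p θ' := by
  rw [sum_mc hp, mc, ← mul_div_assoc]
  refine div_le_div_of_nonneg_right ?_ ((F.S.P i).pr_nonneg _ _)
  obtain ⟨ω, _, _, h3, rfl⟩ := mem_Pc.1 hp
  rw [pr_Rc]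
  refine up_aux (H := H0) ?_ (hg.trans h3) (by norm_num) hH0 (by positivity) (by positivity)
  refine pr_le_of_all (F.S.P i) _ _ (by positivity) (fun ω' => ?_) _
  rw [pr_Rc2 (F.Y (N * w) i) ω']
  exact h.f5 ω'

open Classical in
theorem cap_of (h : FF F i ρ E d t H0 HN N w S (w * F.n i)) (hNK : N * w ≤ K) (hH0 : 0 < H0)
    (hg : 1 / (32 * (H0 * (2:ℝ) ^ (E * N * (w * F.n i : ℕ)))) ≤ g)
    {p : Z3} (hp : p ∈ Pc F i N w S g ωb) {j : ℕ} (hj : j ≤ N) (c : Fin 2 → ℝ) :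
    ∑ θ ∈ (Tc F i N w S ωb).filter (fun θ => ∀ q, |F.s i (N * w) θ q - c q| ≤ (2:ℝ) ^ (-((j : ℝ) * (w * F.n i : ℕ)))),
      mc F i N w S ωb p θ ≤
      32 * (2:ℝ) ^ (E * N * (w * F.n i : ℕ)) * ((2 * ⌈F.C * (5 + 4 * cg F)⌉₊ + 1) ^ 2 *
        (2:ℝ) ^ (-(2 / 3 * j - E * N) * (w * F.n i : ℕ))) * ∑ θ' ∈ Tc F i N w S ωb, mc F i N w S ωb p θ' := by
  set Q := (Tc F i N w S ωb).filter (fun θ => ∀ q, |F.s i (N * w) θ q - c q| ≤ (2:ℝ) ^ (-((j : ℝ) * (w * F.n i : ℕ))))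
    with hQ
  rw [sum_mc hp]
  unfold mc
  rw [← Finset.sum_div, ← mul_div_assoc]
  refine div_le_div_of_nonneg_right ?_ ((F.S.P i).pr_nonneg _ _)
  rw [sum_pr_pair_le]
  by_cases hex : ∃ ω1, 0 < (F.S.P i).w ω1 ∧ F.Y (N * w) i ω1 ∈ Q
  · obtain ⟨ω1, a1, a2⟩ := hex
    rw [hQ, Finset.mem_filter] at a2
    set B : Finset Z2 := Fintype.piFinset fun a => Finset.Icc (F.Y (j * w) i ω1 a - (⌈F.C * (5 + 4 * cg F)⌉₊ : ℕ))
      (F.Y (j * w) i ω1 a + (⌈F.C * (5 + 4 * cg F)⌉₊ : ℕ)) with hB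
    have h1 : prE (F.S.P i) (fun ω => Rc F i N w S ωb ω = p ∧ F.Y (N * w) i ω ∈ Q) ≤
        prE (F.S.P i) (fun ω => Rc F i N w S ωb ω = p ∧ F.Y (j * w) i ω ∈ B) := by
      refine prE_mono _ fun ω hω he => ⟨he.1, ?_⟩
      have h2 := he.2
      rw [hQ, Finset.mem_filter] at h2
      rw [hB, Fintype.mem_piFinset]
      intro q
      have h3 := cap_near hj hNK c hω a1 h2.2 a2.2 q
      rw [abs_le] at h3
      rw [Finset.mem_Icc]
      constructor <;> linarith [h3.1, h3.2]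
    refine h1.trans ?_
    have h2 := prE_box (F.S.P i) (Rc F i N w S ωb) (F.Y (j * w) i) p B
      (H0⁻¹ * (2:ℝ) ^ (-(2 / 3 * j - E * N) * (w * F.n i : ℕ))) (by positivity) (fun ω => by
        rw [pr_Rc2 (F.Y (j * w) i) ω]
        exact h.f6 j hj ω)
    rw [hB, card_box] at h2
    obtain ⟨ω, _, _, h3, rfl⟩ := mem_Pc.1 hp
    rw [pr_Rc]
    refine up_aux (H := H0) (h2.trans (le_of_eq ?_)) (hg.trans h3) (by norm_num) hH0 (by positivity) (by positivity)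
    ring
  · push Not at hex
    have h1 : prE (F.S.P i) (fun ω => Rc F i N w S ωb ω = p ∧ F.Y (N * w) i ω ∈ Q) ≤
        prE (F.S.P i) (fun _ => False) := prE_mono _ fun ω hω he => hex ω hω he.2
    have h2 : prE (F.S.P i) (fun _ => False) = 0 := by
      unfold prE
      simp
    rw [h2] at h1
    refine h1.trans ?_
    have := (F.S.P i).pr_nonneg (Rc F i N w S ωb) p
    positivity

open Classical in
theorem str_of (h : FF F i ρ E d t H0 HN N w S (w * F.n i)) (hNw : 1 ≤ N * w) (hNK : N * w ≤ K) (hn : 1 ≤ F.n i)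
    {u : ℝ} (hu : u ≤ 1 / (2:ℝ) ^ F.n i) {M : ℕ} (hM : 1 + 2 * cg F ≤ F.C * M)
    {p : Z3} (hp : p ∈ Pc F i N w S g ωb) (ϑ r : ℝ) :
    ∑ θ ∈ (Tc F i N w S ωb).filter (fun θ => |nc ϑ (F.s i (N * w) θ) - r| ≤ u), mc F i N w S ωb p θ ≤
      ((2 * M + 1) * t) * ∑ θ' ∈ Tc F i N w S ωb, mc F i N w S ωb p θ' := by
  have hC := C_pos hn
  set D : ℝ := (2:ℝ) ^ F.n i with hD
  have hD0 : 0 < D := by positivity
  rw [sum_mc hp]
  unfold mc
  rw [← Finset.sum_div, ← mul_div_assoc]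
  refine div_le_div_of_nonneg_right ?_ ((F.S.P i).pr_nonneg _ _)
  rw [sum_pr_pair_le]
  have h1 : prE (F.S.P i) (fun ω => Rc F i N w S ωb ω = p ∧
      F.Y (N * w) i ω ∈ (Tc F i N w S ωb).filter (fun θ => |nc ϑ (F.s i (N * w) θ) - r| ≤ u)) ≤
      prE (F.S.P i) (fun ω => ∃ k ∈ Finset.Icc (-(M:ℤ)) M, Rc F i N w S ωb ω = p ∧
        |fn ϑ (F.s i 1 (F.Y 1 i ω)) - (r + F.C / D * k)| ≤ F.C / D) := by
    refine prE_mono _ fun ω hω he => ?_
    obtain ⟨h2, h3⟩ := he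
    rw [Finset.mem_filter] at h3
    have h4 := str_near hNw hNK hω hu h3.2
    obtain ⟨k, hk, hk'⟩ := cover_strip (C := F.C / D) (M := M) (by positivity) (by
      rw [div_mul_eq_mul_div]
      exact div_le_div_of_nonneg_right hM hD0.le) h4
    exact ⟨k, hk, h2, hk'⟩
  refine h1.trans ((prE_iUnion _ _ _).trans ?_)
  have h2 : ∀ k ∈ Finset.Icc (-(M:ℤ)) M, prE (F.S.P i) (fun ω => Rc F i N w S ωb ω = p ∧
      |fn ϑ (F.s i 1 (F.Y 1 i ω)) - (r + F.C / D * k)| ≤ F.C / D) ≤ t * (F.S.P i).pr (Rc F i N w S ωb) p := by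
    intro k _
    refine prE_fib (F.S.P i) (F.x i) (Rc F i N w S ωb) (fun ω ω' e => ?_) _ t (fun ω0 hω0 => ?_) p
    · have e' : F.N 0 i ω = F.N 0 i ω' := e
      unfold Rc NS.bl
      rw [e']
    · have h5 := h.spr ω0 hω0 ϑ (r + F.C / D * k)
      rw [prE_ex] at h5
      exact h5
  refine (Finset.sum_le_sum h2).trans (le_of_eq ?_)
  rw [Finset.sum_const, nsmul_eq_mul, Int.card_Icc]
  have e : ((((M:ℤ) + 1 - -(M:ℤ)).toNat : ℕ) : ℝ) = 2 * M + 1 := by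
    have : ((M:ℤ) + 1 - -(M:ℤ)).toNat = 2 * M + 1 := by omega
    rw [this]
    push_cast
    ring
  rw [e]
  ring

theorem mass_ge (hq0 : 0 < (F.S.P i).pr (bl F (S + N * w) i) (bl F (S + N * w) i ωb))
    (hb : 4 * prE (F.S.P i) (fun ω' => bl F (S + N * w) i ω' = bl F (S + N * w) i ωb ∧
      (F.S.P i).pr (bl F S i) (bl F S i ω') < g) ≤ (F.S.P i).pr (bl F (S + N * w) i) (bl F (S + N * w) i ωb)) :
    1 / 2 ≤ ∑ p ∈ Pc F i N w S g ωb, ∑ θ ∈ Tc F i N w S ωb, mc F i N w S ωb p θ := by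
  rw [Finset.sum_congr rfl fun p hp => sum_mc hp, ← Finset.sum_div, prE_eq_sum_pr, le_div_iff₀ hq0]
  have h1 : prE (F.S.P i) (fun ω => bl F (S + N * w) i ω = bl F (S + N * w) i ωb) ≤
      prE (F.S.P i) (fun ω => Rc F i N w S ωb ω ∈ Pc F i N w S g ωb ∨
        (bl F (S + N * w) i ω = bl F (S + N * w) i ωb ∧ (F.S.P i).pr (bl F S i) (bl F S i ω) < g)) := by
    refine prE_mono _ fun ω hω he => ?_
    rcases lt_or_ge ((F.S.P i).pr (bl F S i) (bl F S i ω)) g with h2 | h2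
    · exact Or.inr ⟨he, h2⟩
    · exact Or.inl (mem_Pc.2 ⟨ω, hω, he, h2, rfl⟩)
  rw [prE_pr] at h1
  have h2 := h1.trans (prE_or _ _ _)
  linarith

theorem mass_le (hq0 : 0 < (F.S.P i).pr (bl F (S + N * w) i) (bl F (S + N * w) i ωb)) :
    ∑ p ∈ Pc F i N w S g ωb, ∑ θ ∈ Tc F i N w S ωb, mc F i N w S ωb p θ ≤ 1 := by
  rw [Finset.sum_congr rfl fun p hp => sum_mc hp, ← Finset.sum_div, prE_eq_sum_pr, div_le_iff₀ hq0, one_mul, ← prE_pr]
  exact prE_mono _ fun ω _ he => (Pc_fib he rfl).1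

theorem box_of {p : Z3} (hp : p ∈ Pc F i N w S g ωb) : (0 ≤ p.1 ∧ p.1 < 2 ^ (N * (w * F.n i))) ∧
    ∀ q, 0 ≤ p.2 q ∧ p.2 q < 2 ^ (N * (w * F.n i)) := by
  obtain ⟨ω, _, h2, _, rfl⟩ := mem_Pc.1 hp
  unfold Rc
  rw [← h2, bl_dv S (N * w) i ω, mul_assoc]
  have key : ∀ x : ℤ, 0 ≤ x - 2 ^ (N * (w * F.n i)) * (x / 2 ^ (N * (w * F.n i))) ∧
      x - 2 ^ (N * (w * F.n i)) * (x / 2 ^ (N * (w * F.n i))) < 2 ^ (N * (w * F.n i)) := by
    intro x
    have hp : (0:ℤ) < 2 ^ (N * (w * F.n i)) := by positivity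
    have e := Int.mul_ediv_add_emod x (2 ^ (N * (w * F.n i)))
    have h1 := Int.emod_nonneg x hp.ne'
    have h2 := Int.emod_lt_of_pos x hp
    constructor <;> linarith
  exact ⟨key _, fun q => key _⟩

theorem th_of (h : FF F i ρ E d t H0 HN N w S (w * F.n i)) (hb : 0 < (F.S.P i).w ωb) :
    ((Tc F i N w S ωb).card : ℝ) ≤ (2:ℝ) ^ ((d + E) * N * (w * F.n i : ℕ)) := by
  obtain ⟨U, hU, hU'⟩ := h.f3 ωb hb
  refine (Nat.cast_le.2 (Finset.card_le_card fun θ hθ => ?_)).trans hU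
  obtain ⟨ω, h1, h2, rfl⟩ := mem_Tc.1 hθ
  exact hU' ω h1 h2

end Vale.Agent.P076.H803
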