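import Vale.Agent.P076.H803.WinF

/-!
# P076 / H803 : from the flat facts at one index to the finite configuration, part 5 : assembly (helper803)
-/

set_option autoImplicit false

namespace Vale.Agent.P076.H803

open Filter Topology Finset Vale.Agent.P127 Vale.Agent.P127.Stk Vale.Agent.P127.U Vale.Agent.P127.U.Sys
  Vale.Agent.P122.C2 Vale.Agent.P122.E Vale.Agent.P122.H518 Vale.Agent.P076.NS Vale.Agent.P076.BG
  Vale.Agent.P076.H732

/-- the constant of the geometry -/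
noncomputable def Ac {K : ℕ} (F : Flg K) : ℝ :=
  32 * (2 * ⌈F.C * (5 + 4 * cg F)⌉₊ + 1) ^ 2 + (2 * (3 + ⌈cg F⌉₊ : ℕ) + 1) ^ 2

theorem pw_add (x y : ℝ) : (2:ℝ) ^ x * (2:ℝ) ^ y = (2:ℝ) ^ (x + y) := (Real.rpow_add (by norm_num) x y).symm

theorem pw_le {x y : ℝ} (h : x ≤ y) : (2:ℝ) ^ x ≤ (2:ℝ) ^ y := Real.rpow_le_rpow_of_exponent_le (by norm_num) h

/-- **the finite configuration** -/
theorem cfg_of {K : ℕ} {F : Flg K} {i : ℕ} {ρ E d t H0 HN : ℝ} {N w S : ℕ}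
    (h : FF F i ρ E d t H0 HN N w S (w * F.n i)) (hE : 0 < E) (hN : 1 ≤ N) (hw : 1 ≤ w) (hNK : N * w ≤ K)
    (hn : 1 ≤ F.n i) (hH0 : 0 < H0) (hHN : 0 < HN) {M : ℕ} (hM : 1 + 2 * cg F ≤ F.C * M)
    (ht : (2 * M + 1) * t ≤ 1 / (1000 * (N:ℝ) ^ 2)) (hA : Ac F ≤ (2:ℝ) ^ (E * N * (w * F.n i : ℕ)))
    (hEw : 1 ≤ 3 * E * N * w) :
    ∃ (P : Finset Z3) (Th : Finset Z2) (v : Z2 → Fin 2 → ℝ) (μ : Z3 → Z2 → ℝ), Cfg ρ (3 * E) d N (w * F.n i) P Th v μ := by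
  classical
  have hNr : (1:ℝ) ≤ N := by exact_mod_cast hN
  set m : ℕ := w * F.n i with hm
  set a : ℝ := (2:ℝ) ^ (E * N * (m : ℝ)) with ha
  have ha0 : 0 < a := by positivity
  have hc2 : (0:ℝ) ≤ ⌈F.C * (5 + 4 * cg F)⌉₊ := Nat.cast_nonneg _
  have hc3 : (0:ℝ) ≤ (3 + ⌈cg F⌉₊ : ℕ) := Nat.cast_nonneg _
  have hA1 : 32 * (2 * (⌈F.C * (5 + 4 * cg F)⌉₊ : ℝ) + 1) ^ 2 ≤ a := by
    refine le_trans ?_ hA
    unfold Ac
    have : (0:ℝ) ≤ (2 * (3 + ⌈cg F⌉₊ : ℕ) + 1) ^ 2 := by positivity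
    linarith
  have hA2 : (2 * ((3 + ⌈cg F⌉₊ : ℕ) : ℝ) + 1) ^ 2 ≤ a := by
    refine le_trans ?_ hA
    unfold Ac
    have : (0:ℝ) ≤ 32 * (2 * (⌈F.C * (5 + 4 * cg F)⌉₊ : ℝ) + 1) ^ 2 := by positivity
    linarith
  have ha32 : 32 ≤ a := by
    refine le_trans ?_ hA1
    nlinarith
  have hEm : 0 ≤ E * N * (m:ℝ) := by positivity
  -- the ball
  obtain ⟨U, hU, hU'⟩ := h.f7
  obtain ⟨V, hV, hV'⟩ := h.f8
  obtain ⟨ωb, b1, b2, b3⟩ := exists_typ (F.S.P i) (bl F (S + N * w) i) (bl F S i) U V (HN * a) (H0 * a) hU' hV' hU hV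
    (by positivity) (by positivity)
  set q : ℝ := (F.S.P i).pr (bl F (S + N * w) i) (bl F (S + N * w) i ωb) with hq
  have hq0 : 0 < q := lt_of_lt_of_le (by positivity) b2
  set g : ℝ := 1 / (32 * (H0 * a)) with hg
  have hs0 : ∀ p, 0 ≤ ∑ θ ∈ Tc F i N w S ωb, mc F i N w S ωb p θ := fun p =>
    Finset.sum_nonneg fun θ _ => div_nonneg ((F.S.P i).pr_nonneg _ _) ((F.S.P i).pr_nonneg _ _)
  refine ⟨Pc F i N w S g ωb, Tc F i N w S ωb, F.s i (N * w), mc F i N w S ωb, ?_⟩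
  refine ⟨fun p θ => div_nonneg ((F.S.P i).pr_nonneg _ _) ((F.S.P i).pr_nonneg _ _), mass_ge hq0 b3, mass_le hq0,
    fun p hp => box_of hp, ?_, ?_, ?_, ?_, ?_, ?_, ?_, ?_, ?_⟩
  · -- vb
    intro θ hθ r
    obtain ⟨ω, h1, _, rfl⟩ := mem_Tc.1 hθ
    refine (slope_bd hNK h1 r).trans ?_
    refine Real.one_le_rpow (by norm_num) ?_
    positivity
  · -- c1
    intro j hj
    refine (c1_of h b1 hj).trans (pw_le ?_)
    rw [← hm]
    have e : (3 * ρ * j + 3 * E * N) * (m:ℝ) = (3 * ρ * j + E * N) * m + 2 * (E * N * m) := by ring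
    rw [e]
    linarith
  · -- c2
    intro j hj c
    refine (c2_of h hj c).trans (pw_le ?_)
    rw [← hm]
    have e : (3 * ρ * ((N:ℝ) - j) + 3 * E * N) * (m:ℝ) = (3 * ρ * ((N:ℝ) - j) + E * N) * m + 2 * (E * N * m) := by ring
    rw [e]
    linarith
  · -- c3
    intro θ _ a' j haj hj c
    refine (c3_of h hNK haj hj c).trans ((mul_le_mul_of_nonneg_right hA2 (by positivity)).trans ?_)
    rw [ha, pw_add, ← hm]
    refine pw_le ?_
    have e : (2 * ρ * ((j:ℝ) - a') + 3 * E * N) * (m:ℝ) = E * N * m + (2 * ρ * ((j:ℝ) - a') + E * N) * m + E * N * m := by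
      ring
    rw [e]
    linarith
  · -- up
    intro p hp
    refine (up_of h hHN b2 hp).trans ?_
    rw [← hm, ← ha]
    calc 8 * a * (2:ℝ) ^ (-(3 * ρ - E) * N * (m:ℝ)) ≤ a * a * (2:ℝ) ^ (-(3 * ρ - E) * N * (m:ℝ)) := by
          refine mul_le_mul_of_nonneg_right ?_ (by positivity)
          nlinarith
      _ = (2:ℝ) ^ (-(3 * ρ - 3 * E) * N * (m:ℝ)) := by
          rw [ha, pw_add, pw_add]
          congr 1
          ring
  · -- th
    refine (th_of h b1).trans (pw_le ?_)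
    rw [← hm]
    have e : (d + 3 * E) * N * (m:ℝ) = (d + E) * N * m + 2 * (E * N * m) := by ring
    rw [e]
    linarith
  · -- flat
    intro p hp θ _
    refine (flat_of h hH0 (le_of_eq rfl) hp θ).trans ?_
    rw [← hm, ← ha]
    refine mul_le_mul_of_nonneg_right ?_ (hs0 p)
    calc 32 * a * (2:ℝ) ^ (-(d - E) * N * (m:ℝ)) ≤ a * a * (2:ℝ) ^ (-(d - E) * N * (m:ℝ)) := by
          refine mul_le_mul_of_nonneg_right ?_ (by positivity)
          nlinarith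
      _ = (2:ℝ) ^ (-(d - 3 * E) * N * (m:ℝ)) := by
          rw [ha, pw_add, pw_add]
          congr 1
          ring
  · -- cap
    intro p hp j hj c
    refine (cap_of h hNK hH0 (le_of_eq rfl) hp hj c).trans ?_
    rw [← hm, ← ha]
    refine mul_le_mul_of_nonneg_right ?_ (hs0 p)
    calc 32 * a * ((2 * (⌈F.C * (5 + 4 * cg F)⌉₊ : ℝ) + 1) ^ 2 * (2:ℝ) ^ (-(2 / 3 * j - E * N) * (m:ℝ)))
        = (32 * (2 * (⌈F.C * (5 + 4 * cg F)⌉₊ : ℝ) + 1) ^ 2) * a * (2:ℝ) ^ (-(2 / 3 * j - E * N) * (m:ℝ)) := by ring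
      _ ≤ a * a * (2:ℝ) ^ (-(2 / 3 * j - E * N) * (m:ℝ)) := by
          refine mul_le_mul_of_nonneg_right (mul_le_mul_of_nonneg_right hA1 ha0.le) (by positivity)
      _ = (2:ℝ) ^ (-(2 / 3 * j - 3 * E * N) * (m:ℝ)) := by
          rw [ha, pw_add, pw_add]
          congr 1
          ring
  · -- str
    intro p hp ϑ r
    have hNw : 1 ≤ N * w := Nat.mul_pos hN hw
    have hu : (2:ℝ) ^ (-(3 * E * N * (m:ℝ))) ≤ 1 / (2:ℝ) ^ F.n i := by
      rw [one_div, ← Real.rpow_natCast, ← Real.rpow_neg (by norm_num)]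
      refine pw_le ?_
      rw [neg_le_neg_iff, hm]
      push_cast
      have hnr : (0:ℝ) ≤ F.n i := Nat.cast_nonneg _
      calc (F.n i : ℝ) = 1 * F.n i := (one_mul _).symm
        _ ≤ 3 * E * N * w * F.n i := mul_le_mul_of_nonneg_right hEw hnr
        _ = 3 * E * N * (w * F.n i) := by ring
    refine (str_of h hNw hNK hn hu hM hp ϑ r).trans ?_
    exact mul_le_mul_of_nonneg_right ht (hs0 p)

end Vale.Agent.P076.H803
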